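import Vale.Agent.P204.Full.LogTest.Model

/-!
P204, step 3 in a chart: the uniform estimates of the test form.
-/

namespace Vale.Agent.P204.Full.LogTest

open Set Metric
open scoped ContDiff RealInnerProductSpace Topology

/-- matrix of a linear map -/
noncomputable def matL (A : E4 →L[ℝ] E4) : Matrix (Fin 4) (Fin 4) ℝ := fun c a => A (ev4 a) c

/-- vector field pairing with the covector field in the anti-invariant part -/
noncomputable def restPm (J : E4 → E4 →L[ℝ] E4) (z : E4) (b c : Fin 4) : E4 :=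
  -((1 / 2 : ℝ) • (rest J z (ev4 b) (ev4 c) - rest J z (J z (ev4 b)) (J z (ev4 c))))

/-- the anti-invariant part as a linear function of the covector field -/
noncomputable def restMap (J : E4 → E4 →L[ℝ] E4) (z : E4) : (E4 →L[ℝ] ℝ) →L[ℝ] C2 :=
  ContinuousLinearMap.pi fun b => ContinuousLinearMap.pi fun c =>
    ContinuousLinearMap.apply ℝ ℝ (restPm J z b c)

variable {J : E4 → E4 →L[ℝ] E4}

theorem contDiff_rest (hJ : ContDiff ℝ ∞ J) {u v : E4 → E4} (hu : ContDiff ℝ ∞ u)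
    (hv : ContDiff ℝ ∞ v) : ContDiff ℝ ∞ fun z => rest J z (u z) (v z) := by
  have hc : ContDiff ℝ ∞ (chi : E4 → ℝ) := chi.contDiff
  have dc := hc.fderiv_right (m := ∞) (by norm_num)
  have dj := hJ.fderiv_right (m := ∞) (by norm_num)
  exact (((dc.clm_apply hu).smul (hJ.clm_apply hv)).add
    (hc.smul ((dj.clm_apply hu).clm_apply hv))).sub
    (((dc.clm_apply hv).smul (hJ.clm_apply hu)).add (hc.smul ((dj.clm_apply hv).clm_apply hu)))

theorem contDiff_restMap (hJ : ContDiff ℝ ∞ J) : ContDiff ℝ ∞ (restMap J) := by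
  refine contDiff_clm_apply_iff.2 fun η => contDiff_pi.2 fun b => contDiff_pi.2 fun c => ?_
  have h1 := contDiff_rest hJ (u := fun _ => ev4 b) (v := fun _ => ev4 c) contDiff_const
    contDiff_const
  have h2 := contDiff_rest hJ (hJ.clm_apply (g := fun _ => ev4 b) contDiff_const)
    (hJ.clm_apply (g := fun _ => ev4 c) contDiff_const)
  exact η.contDiff.comp ((h1.sub h2).const_smul (1 / 2 : ℝ)).neg

theorem bil_expand (L : E4 →L[ℝ] E4 →L[ℝ] ℝ) (u v : E4) :
    L u v = ∑ a, ∑ b, u a * v b * L (ev4 a) (ev4 b) := by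
  have hs : ∀ w : E4, w = ∑ a, w a • ev4 a := fun w => by
    ext i; simp [ev4, Finset.sum_apply, Pi.single_apply]
  conv_lhs => rw [hs u, hs v]
  simp only [map_sum, map_smul, FunLike.coe_sum, Finset.sum_apply, smul_apply, smul_eq_mul,
    Finset.mul_sum]
  rw [Finset.sum_comm]
  exact Finset.sum_congr rfl fun a _ => Finset.sum_congr rfl fun b _ => by ring

variable {K : ℝ} {a : E4} {r : ℝ}

theorem pullC_testC (hr : 0 < r) (hJ : ContDiff ℝ ∞ J) (z : E4) (A : E4 →L[ℝ] E4)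
    (b c : Fin 4) : pullC (matL A) (testC K J a r z) b c =
      testW K J a r z (A (ev4 b)) (A (ev4 c)) := by
  simp only [pullC, matL, testC_apply K J a r hr hJ, testW]
  rw [bil_expand (fderiv ℝ (alphaL K J a r) z) (A (ev4 b)) (A (ev4 c)),
    bil_expand (fderiv ℝ (alphaL K J a r) z) (A (ev4 c)) (A (ev4 b))]
  rw [Finset.sum_comm (f := fun p q => (A (ev4 c)) p * (A (ev4 b)) q *
    fderiv ℝ (alphaL K J a r) z (ev4 p) (ev4 q)), ← Finset.sum_sub_distrib]
  refine Finset.sum_congr rfl fun p _ => ?_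
  rw [← Finset.sum_sub_distrib]
  exact Finset.sum_congr rfl fun q _ => by ring

theorem restMap_apply (z : E4) (η : E4 →L[ℝ] ℝ) (b c : Fin 4) :
    restMap J z η b c = η (restPm J z b c) := rfl

theorem hess_neg (w v : E4) (z : E4) : hess K J a r z w (-v) = -hess K J a r z w v := by
  simp only [hess, qA_neg]; ring

theorem hess_comm (w v : E4) (z : E4) : hess K J a r z w v = hess K J a r z v w := by
  simp only [hess, qA_comm (J a) w v]; ring

/-- the anti-invariant part has no second order term -/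
theorem pmC_testC (hr : 0 < r) (hJ : ContDiff ℝ ∞ J)
    (hJ2 : ∀ z ∈ closedBall (0 : E4) 3, ∀ v, J z (J z v) = -v) (z : E4) :
    pmC (matL (J z)) (testC K J a r z) = restMap J z (xi K (J a) a r z) := by
  funext b c
  simp only [pmC, pullC_testC hr hJ, testC_apply K J a r hr hJ, testW_eq K J a r hr hJ,
    restMap_apply, restPm, map_neg, map_smul, map_sub, smul_eq_mul]
  by_cases hz : z ∈ closedBall (0 : E4) 3
  · simp only [hJ2 z hz, hess_neg]
    rw [hess_comm (J z (ev4 b)) (ev4 c), hess_comm (J z (ev4 c)) (ev4 b)]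
    ring
  · have : chi z = 0 := chi.zero_of_le_dist (not_le.1 hz).le
    rw [this]; ring

theorem exists_bound_on_cb {F : Type*} [NormedAddCommGroup F] {f : E4 → F} (hf : Continuous f)
    (R : ℝ) : ∃ C, 0 ≤ C ∧ ∀ z ∈ closedBall (0 : E4) R, ‖f z‖ ≤ C := by
  obtain ⟨C, hC⟩ := (isCompact_closedBall (0 : E4) R).exists_bound_of_continuousOn hf.continuousOn
  exact ⟨max C 0, le_max_right _ _, fun z hz => (hC z hz).trans (le_max_left _ _)⟩

/-- derivative bounds of the anti-invariant part -/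
theorem pm_bound (hJ : ContDiff ℝ ∞ J)
    (hJ2 : ∀ z ∈ closedBall (0 : E4) 3, ∀ v, J z (J z v) = -v) (K : ℝ) (n : ℕ) :
    ∃ C, 0 ≤ C ∧ ∀ a ∈ closedBall (0 : E4) 1, ∀ r : ℝ, 0 < r → r ≤ 1 → ∀ z,
      ‖iteratedFDeriv ℝ n (fun y => pmC (matL (J y)) (testC K J a r y)) z‖ ≤
        C / dist2 a r z ^ (1 + n) := by
  obtain ⟨M, hM0, hM⟩ := exists_bound_on_cb hJ.continuous 3
  have hX := contDiff_restMap hJ
  have hxb := fun j => xi_bound K M 5 j
  choose Cx hCx0 hCx using hxb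
  have hXb := fun i : ℕ => exists_bound_on_cb
    (hX.continuous_iteratedFDeriv (m := i) (WithTop.coe_le_coe.2 le_top)) 3
  choose Bx hBx0 hBx using hXb
  refine ⟨∑ i ∈ Finset.range (n + 1), (n.choose i : ℝ) * Bx i * (Cx (n - i) * 5 ^ i), ?_, ?_⟩
  · exact Finset.sum_nonneg fun i _ => by have := hBx0 i; have := hCx0 (n - i); positivity
  intro a ha r hr hr1 z
  have hd : 0 < dist2 a r z := dist2_pos a hr z
  by_cases hz : z ∈ closedBall (0 : E4) 3
  · have heq : (fun y => pmC (matL (J y)) (testC K J a r y)) =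
        fun y => restMap J y (xi K (J a) a r y) := funext fun y => pmC_testC hr hJ hJ2 y
    rw [heq]
    refine (norm_iteratedFDeriv_clm_apply hX (contDiff_xi K (J a) a hr) z
      (WithTop.coe_le_coe.2 le_top)).trans ?_
    rw [Finset.sum_div]
    refine Finset.sum_le_sum fun i hi => ?_
    have hρ5 : dist2 a r z ≤ 5 := by
      rw [dist2, Real.sqrt_le_iff]
      refine ⟨by norm_num, ?_⟩
      have h1 : ‖z - a‖ ≤ 4 := by
        have := norm_sub_le z a
        have h2 : ‖z‖ ≤ 3 := by simpa using hz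
        have h3 : ‖a‖ ≤ 1 := by simpa using ha
        linarith
      nlinarith [norm_nonneg (z - a)]
    have haM : ‖J a‖ ≤ M := hM a (closedBall_subset_closedBall (by norm_num) ha)
    have h1 := hBx i z hz
    have h2 := hCx (n - i) (J a) haM a z r hr hρ5
    calc (n.choose i : ℝ) * ‖iteratedFDeriv ℝ i (restMap J) z‖ *
          ‖iteratedFDeriv ℝ (n - i) (xi K (J a) a r) z‖
        ≤ (n.choose i : ℝ) * Bx i * (Cx (n - i) / dist2 a r z ^ (1 + (n - i))) :=
          mul_le_mul (mul_le_mul_of_nonneg_left h1 (by positivity)) h2 (norm_nonneg _)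
            (mul_nonneg (by positivity) (hBx0 i))
      _ ≤ (n.choose i : ℝ) * Bx i * (Cx (n - i) * 5 ^ i / dist2 a r z ^ (1 + n)) := by
          refine mul_le_mul_of_nonneg_left ?_ (mul_nonneg (by positivity) (hBx0 i))
          rw [div_le_div_iff₀ (by positivity) (by positivity)]
          have hin : i ≤ n := Nat.lt_succ_iff.1 (Finset.mem_range.1 hi)
          rw [show dist2 a r z ^ (1 + n) = dist2 a r z ^ (1 + (n - i)) * dist2 a r z ^ i by
            rw [← pow_add]; congr 1; omega]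
          calc Cx (n - i) * (dist2 a r z ^ (1 + (n - i)) * dist2 a r z ^ i)
              ≤ Cx (n - i) * (dist2 a r z ^ (1 + (n - i)) * 5 ^ i) :=
                mul_le_mul_of_nonneg_left (mul_le_mul_of_nonneg_left
                  (pow_le_pow_left₀ hd.le hρ5 i) (by positivity)) (hCx0 _)
            _ = _ := by ring
      _ = _ := by ring
  · have hev : (fun y => pmC (matL (J y)) (testC K J a r y)) =ᶠ[𝓝 z] fun _ => (0 : C2) := by
      filter_upwards [isClosed_closedBall.isOpen_compl.mem_nhds hz] with y hy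
      funext b c
      simp [pmC, pullC, testC_eq_zero K J a r hy]
    rw [(hev.iteratedFDeriv ℝ n).self_of_nhds]
    have h0 : iteratedFDeriv ℝ n (fun _ : E4 => (0 : C2)) z = 0 := by simp
    rw [h0, norm_zero]
    have : 0 ≤ ∑ i ∈ Finset.range (n + 1), (n.choose i : ℝ) * Bx i * (Cx (n - i) * 5 ^ i) :=
      Finset.sum_nonneg fun i _ => by have := hBx0 i; have := hCx0 (n - i); positivity
    positivity

theorem rest_norm {z v : E4} {B M L : ℝ} (hB0 : 0 ≤ B) (hL0 : 0 ≤ L) (hM0 : 0 ≤ M)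
    (hB : ‖fderiv ℝ chi z‖ ≤ B) (hM : ‖J z‖ ≤ M) (hL : ‖fderiv ℝ J z‖ ≤ L) :
    ‖rest J z v (J z v)‖ ≤ 2 * (B * M + L) * (M + 1) * ‖v‖ ^ 2 := by
  have hχ : ‖chi z‖ ≤ 1 := by
    rw [Real.norm_eq_abs, abs_of_nonneg chi.nonneg]; exact chi.le_one
  have hone : ∀ x y : E4, ‖(fderiv ℝ chi z x) • J z y + chi z • fderiv ℝ J z x y‖ ≤
      (B * M + L) * (‖x‖ * ‖y‖) := fun x y => by
    refine (norm_add_le _ _).trans ?_
    rw [norm_smul, norm_smul]
    have h1 : ‖fderiv ℝ chi z x‖ * ‖J z y‖ ≤ B * ‖x‖ * (M * ‖y‖) :=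
      mul_le_mul (((fderiv ℝ chi z).le_opNorm x).trans
        (mul_le_mul_of_nonneg_right hB (norm_nonneg _)))
        (((J z).le_opNorm y).trans (mul_le_mul_of_nonneg_right hM (norm_nonneg _)))
        (norm_nonneg _) (by positivity)
    have h2 : ‖chi z‖ * ‖fderiv ℝ J z x y‖ ≤ 1 * (L * ‖x‖ * ‖y‖) :=
      mul_le_mul hχ (((fderiv ℝ J z x).le_opNorm y).trans
        (mul_le_mul_of_nonneg_right (((fderiv ℝ J z).le_opNorm x).trans
          (mul_le_mul_of_nonneg_right hL (norm_nonneg _))) (norm_nonneg _)))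
        (norm_nonneg _) zero_le_one
    linarith
  refine (norm_sub_le _ _).trans ((add_le_add (hone v (J z v)) (hone (J z v) v)).trans ?_)
  calc (B * M + L) * (‖v‖ * ‖J z v‖) + (B * M + L) * (‖J z v‖ * ‖v‖)
      = 2 * (B * M + L) * (‖v‖ * ‖J z v‖) := by ring
    _ ≤ 2 * (B * M + L) * (‖v‖ * ((M + 1) * ‖v‖)) :=
        mul_le_mul_of_nonneg_left (mul_le_mul_of_nonneg_left (((J z).le_opNorm v).trans
          (mul_le_mul_of_nonneg_right (hM.trans (by linarith)) (norm_nonneg _))) (norm_nonneg _))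
          (by positivity)
    _ = _ := by ring

theorem abs_xi_le (A : E4 →L[ℝ] E4) (hr : 0 < r) (hK : 0 ≤ K) (z X : E4) {Z : ℝ} (hZ : 0 ≤ Z)
    (hX : qA A X X ≤ Z ^ 2) :
    |xi K A a r z X| ≤ (2 / Real.sqrt (sA A a r z) + K) * Z := by
  have hq0 : 0 ≤ qA A (z - a) (z - a) := by rw [qA_self]; positivity
  have hs0 := sA_pos A a hr z
  have hQ : |qA A (z - a) X| ≤ Real.sqrt (sA A a r z) * Z := by
    refine abs_le_of_sq_le_sq ((qA_cs A (z - a) X).trans ?_) (by positivity)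
    rw [mul_pow, Real.sq_sqrt hs0.le]
    exact mul_le_mul (by rw [sA]; nlinarith) hX (by rw [qA_self]; positivity) hs0.le
  rw [xi_apply, abs_mul, phiA]
  generalize sA A a r z = s at hs0 hQ ⊢
  rw [abs_of_nonneg (by positivity)]
  refine (mul_le_mul_of_nonneg_left hQ (by positivity)).trans_eq ?_
  have h1 : Real.sqrt s / s = 1 / Real.sqrt s := Real.sqrt_div_self'
  calc _ = 2 * (Real.sqrt s / s) * Z + K * (Real.sqrt s / Real.sqrt s) * Z := by ring
    _ = _ := by rw [h1, div_self (Real.sqrt_pos.2 hs0).ne']; ring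

theorem scalar_lower {Φ w κ Y K P q c T H : ℝ} (hΦ : 0 ≤ Φ) (hw : 0 < w) (hY : 0 ≤ Y)
    (hK : K = 12 * κ + 2 * Y) (hP : 0 ≤ P) (hq : 0 ≤ q) (hc0 : 0 ≤ c) (hc1 : c ≤ 1)
    (hH : q * (Φ + (K - 12 * κ) / w - P) ≤ H) (hT : c * H - (2 / w + K) * (Y * q) ≤ T)
    (h : c = 1 ∨ 1 ≤ w) :
    -(P + (2 + K) * Y) * q ≤ T ∧ (c = 1 → (Φ - (P + (2 + K) * Y)) * q ≤ T) := by
  have hqY : 0 ≤ q * Y := mul_nonneg hq hY
  have h1 : c = 1 → (Φ - (P + (2 + K) * Y)) * q ≤ T := fun h => by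
    subst h
    have e : q * (Φ + (K - 12 * κ) / w - P) - (2 / w + K) * (Y * q) =
        (Φ - (P + (2 + K) * Y)) * q + 2 * (q * Y) := by rw [hK]; ring
    linarith
  refine ⟨?_, h1⟩
  rcases h with h | h
  · have := h1 h
    linarith [mul_nonneg hΦ hq]
  · have e1 : -(q * P) ≤ c * H := by
      have h2 : -(q * P) ≤ q * (Φ + (K - 12 * κ) / w - P) := by
        have : 0 ≤ (K - 12 * κ) / w := div_nonneg (by linarith) hw.le
        linarith [mul_nonneg hq (add_nonneg hΦ this)]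
      calc -(q * P) ≤ c * -(q * P) := by
            nlinarith [mul_nonneg (sub_nonneg.2 hc1) (mul_nonneg hq hP)]
        _ ≤ c * H := mul_le_mul_of_nonneg_left (h2.trans hH) hc0
    have e2 : 2 / w * (Y * q) ≤ 2 * (Y * q) :=
      mul_le_mul_of_nonneg_right (div_le_self zero_le_two h) (mul_nonneg hY hq)
    linarith

/-- positivity of the test form on complex lines, concentrated at the centre -/
theorem testW_lower (hJ : ContDiff ℝ ∞ J)
    (hJ2 : ∀ z ∈ closedBall (0 : E4) 3, ∀ v, J z (J z v) = -v) :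
    ∃ K C M, 0 ≤ C ∧ 0 ≤ M ∧ ∀ a ∈ closedBall (0 : E4) 1, ∀ r : ℝ, 0 < r → r ≤ 1 →
      ∀ z ∈ closedBall (0 : E4) 3, ∀ v,
        -C * ‖v‖ ^ 2 ≤ testW K J a r z v (J z v) ∧
          (‖z - a‖ ≤ 1 → (4 * r ^ 2 / ((1 + M) * ‖z - a‖ ^ 2 + r ^ 2) ^ 2 - C) * ‖v‖ ^ 2 ≤
            testW K J a r z v (J z v)) := by
  obtain ⟨M, hM0, hM⟩ := exists_bound_on_cb hJ.continuous 3
  obtain ⟨L, hL0, hL⟩ := exists_bound_on_cb
    ((hJ.fderiv_right (m := 0) (by norm_num)).continuous) 3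
  obtain ⟨B, hB0, hB⟩ := exists_bound_on_cb
    (((chi.contDiff (n := ⊤) : ContDiff ℝ ∞ (chi : E4 → ℝ)).fderiv_right (m := 0)
      (by norm_num)).continuous) 3
  obtain ⟨P, hP0, hP2⟩ : ∃ P, 0 ≤ P ∧ P ^ 2 = 1 + M ^ 2 :=
    ⟨_, Real.sqrt_nonneg _, Real.sq_sqrt (by positivity)⟩
  obtain ⟨κ, hκ, hκ0⟩ : ∃ κ, κ = P * L ∧ 0 ≤ κ := ⟨_, rfl, by positivity⟩
  obtain ⟨Y, hY, hY0⟩ : ∃ Y, Y = P * (2 * (B * M + L) * (M + 1)) ∧ 0 ≤ Y :=
    ⟨_, rfl, by positivity⟩
  obtain ⟨K, hK, hK0⟩ : ∃ K, K = 12 * κ + 2 * Y ∧ 0 ≤ K := ⟨_, rfl, by positivity⟩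
  obtain ⟨R, hR, hR0⟩ : ∃ R, R = 4 * P ∧ 0 ≤ R := ⟨_, rfl, by positivity⟩
  obtain ⟨P4, hP4, hP40⟩ : ∃ T, T = 4 * κ ^ 2 + K * (4 * κ + κ ^ 2 * R) ∧ 0 ≤ T :=
    ⟨_, rfl, by positivity⟩
  obtain ⟨C0, hC0, hC00⟩ : ∃ C, C = P4 + (2 + K) * Y ∧ 0 ≤ C := ⟨_, rfl, by positivity⟩
  refine ⟨K, (1 + M ^ 2) * C0, M ^ 2, by positivity, sq_nonneg _,
    fun a ha r hr hr1 z hz v => ?_⟩
  have ha1 : ‖a‖ ≤ 1 := by simpa using ha
  have ha3 : a ∈ closedBall (0 : E4) 3 := closedBall_subset_closedBall (by norm_num) ha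
  have hza : ‖z - a‖ ≤ 4 := by
    have := norm_sub_le z a
    have h2 : ‖z‖ ≤ 3 := by simpa using hz
    linarith
  have hqA : ∀ w : E4, ‖w‖ ^ 2 ≤ qA (J a) w w ∧ qA (J a) w w ≤ P ^ 2 * ‖w‖ ^ 2 := fun w => by
    rw [qA_self, hP2]
    have h1 := pow_le_pow_left₀ (norm_nonneg _) (((J a).le_opNorm w).trans
      (mul_le_mul_of_nonneg_right (hM a ha3) (norm_nonneg _))) 2
    exact ⟨by linarith [sq_nonneg ‖(J a) w‖], by linarith⟩
  have hqn : ∀ w : E4, 0 ≤ qA (J a) w w := fun w => (sq_nonneg _).trans (hqA w).1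
  have hlip : ‖J z - J a‖ ≤ L * ‖z - a‖ :=
    (convex_closedBall (0 : E4) 3).norm_image_sub_le_of_norm_fderiv_le
      (fun x _ => hJ.differentiable (by simp) x) hL ha3 hz
  have hE : qA (J a) (J z v - J a v) (J z v - J a v) ≤
      κ ^ 2 * qA (J a) (z - a) (z - a) * qA (J a) v v := by
    have h1 : ‖J z v - J a v‖ ≤ L * ‖z - a‖ * ‖v‖ :=
      ((J z - J a).le_opNorm v).trans (mul_le_mul_of_nonneg_right hlip (norm_nonneg _))
    calc qA (J a) (J z v - J a v) (J z v - J a v)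
        ≤ P ^ 2 * ‖J z v - J a v‖ ^ 2 := (hqA _).2
      _ ≤ P ^ 2 * (L * ‖z - a‖ * ‖v‖) ^ 2 :=
          mul_le_mul_of_nonneg_left (pow_le_pow_left₀ (norm_nonneg _) h1 2) (sq_nonneg _)
      _ = κ ^ 2 * (‖z - a‖ ^ 2 * ‖v‖ ^ 2) := by rw [hκ]; ring
      _ ≤ κ ^ 2 * (qA (J a) (z - a) (z - a) * qA (J a) v v) :=
          mul_le_mul_of_nonneg_left (mul_le_mul (hqA _).1 (hqA _).1 (sq_nonneg _) (hqn _))
            (sq_nonneg _)
      _ = _ := by ring
  have hnR : Real.sqrt (qA (J a) (z - a) (z - a)) ≤ R := by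
    rw [hR, Real.sqrt_le_iff]
    refine ⟨by positivity, (hqA _).2.trans ?_⟩
    rw [mul_pow, mul_comm ((4 : ℝ) ^ 2)]
    exact mul_le_mul_of_nonneg_left (pow_le_pow_left₀ (norm_nonneg _) hza 2) (sq_nonneg _)
  have hH := hess_pos K J a r hK0 hr hκ0 (hJ2 a ha3 v) hE hnR
  rw [← hP4] at hH
  have hX : qA (J a) (rest J z v (J z v)) (rest J z v (J z v)) ≤ (Y * qA (J a) v v) ^ 2 := by
    refine (hqA _).2.trans ?_
    rw [hY, mul_assoc P, mul_pow P]
    refine mul_le_mul_of_nonneg_left (pow_le_pow_left₀ (norm_nonneg _) ?_ 2) (sq_nonneg _)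
    exact (rest_norm hB0 hL0 hM0 (hB z hz) (hM z hz) (hL z hz)).trans
      (mul_le_mul_of_nonneg_left (hqA v).1 (by positivity))
  have hφ := abs_xi_le (a := a) (K := K) (J a) hr hK0 z _ (mul_nonneg hY0 (hqn v)) hX
  have hW : testW K J a r z v (J z v) = chi z * (hess K J a r z v v +
      hess K J a r z (J z v) (J z v)) - xi K (J a) a r z (rest J z v (J z v)) := by
    rw [testW_eq K J a r hr hJ, hJ2 z hz v, hess_neg]
    ring
  have hs0 := sA_pos (J a) a hr z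
  have hcase : chi z = 1 ∨ 1 ≤ Real.sqrt (sA (J a) a r z) := by
    rcases le_or_gt ‖z‖ 2 with h | h
    · exact Or.inl (chi.one_of_mem_closedBall (by simpa [chi] using h))
    · right
      have h4 : 1 ≤ ‖z - a‖ := by linarith [norm_sub_norm_le z a]
      rw [Real.one_le_sqrt, sA]
      have := (hqA (z - a)).1
      have := one_le_pow₀ (n := 2) h4
      linarith [sq_nonneg r]
  have hmain := scalar_lower (Φ := 4 * r ^ 2 / sA (J a) a r z ^ 2) (by positivity)
    (Real.sqrt_pos.2 hs0) hY0 hK hP40 (hqn v) chi.nonneg chi.le_one hH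
    (T := testW K J a r z v (J z v)) (by rw [hW]; linarith [(abs_le.1 hφ).2]) hcase
  rw [← hC0] at hmain
  have hCv : C0 * qA (J a) v v ≤ (1 + M ^ 2) * C0 * ‖v‖ ^ 2 := by
    rw [← hP2, mul_comm (P ^ 2), mul_assoc]
    exact mul_le_mul_of_nonneg_left (hqA v).2 hC00
  refine ⟨by linarith [hmain.1], fun h1 => ?_⟩
  have hone : chi z = 1 := chi.one_of_mem_closedBall (by
    have : ‖z‖ ≤ 2 := by linarith [norm_sub_norm_le z a]
    simpa [chi] using this)
  have hm := hmain.2 hone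
  have hs2 : sA (J a) a r z ≤ (1 + M ^ 2) * ‖z - a‖ ^ 2 + r ^ 2 := by
    rw [sA, ← hP2]; linarith [(hqA (z - a)).2]
  have h6 : 4 * r ^ 2 / ((1 + M ^ 2) * ‖z - a‖ ^ 2 + r ^ 2) ^ 2 * ‖v‖ ^ 2 ≤
      4 * r ^ 2 / sA (J a) a r z ^ 2 * qA (J a) v v :=
    mul_le_mul (div_le_div_of_nonneg_left (by positivity) (by positivity)
      (pow_le_pow_left₀ hs0.le hs2 2)) (hqA v).1 (sq_nonneg _) (by positivity)
  linarith

end Vale.Agent.P204.Full.LogTest
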