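import Mathlib
import Vale.Agent.P204.Full.Flat

/-!
P204, step 3: the square of `1/|y|` is integrable near a point of the model space, uniformly.
-/

namespace Vale.Agent.P204.Full.LogTest

open MeasureTheory Set Metric

theorem integrableOn_inv_sq (R : ℝ) :
    IntegrableOn (fun y : E4 => (‖y‖ ^ 2)⁻¹) (ball (0 : E4) R) := by
  rw [integrableOn_fun_norm_addHaar volume (f := fun s : ℝ => (s ^ 2)⁻¹) (r := R)]
  have h : IntegrableOn (fun s : ℝ => s) (Ioo (0 : ℝ) R) :=
    (continuous_id.continuousOn.integrableOn_Icc (a := 0) (b := R)).mono_set Ioo_subset_Icc_self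
  refine h.congr_fun (fun s hs => ?_) measurableSet_Ioo
  have hs0 : s ≠ 0 := hs.1.ne'
  simp only [finrank_euclideanSpace_fin, smul_eq_mul]
  field_simp

/-- a function dominated by `1/|y - y₀|²` has bounded square integral -/
theorem exists_integral_bound : ∃ C, 0 ≤ C ∧ ∀ (g : E4 → ℝ) (D : ℝ),
    ∀ y0 ∈ closedBall (0 : E4) 2, 0 ≤ D → (∀ y, 0 ≤ g y) →
      (∀ y ∈ closedBall (0 : E4) 2, y ≠ y0 → g y ≤ D / ‖y - y0‖ ^ 2) →
        ∫ y in closedBall (0 : E4) 2, g y ≤ D * C := by
  set G : E4 → ℝ := (ball (0 : E4) 5).indicator fun y => (‖y‖ ^ 2)⁻¹ with hG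
  have hGi : Integrable G := (integrable_indicator_iff measurableSet_ball).2 (integrableOn_inv_sq 5)
  have hG0 : ∀ y, 0 ≤ G y := fun y => indicator_nonneg (fun _ _ => by positivity) y
  refine ⟨∫ y, G y, integral_nonneg hG0, fun g D y0 hy0 hD hg0 hg => ?_⟩
  have hi : Integrable fun y => D * G (y - y0) := (hGi.comp_sub_right y0).const_mul D
  calc ∫ y in closedBall (0 : E4) 2, g y ≤ ∫ y in closedBall (0 : E4) 2, D * G (y - y0) := by
        refine integral_mono_of_nonneg (Filter.Eventually.of_forall hg0) hi.restrict ?_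
        filter_upwards [ae_restrict_mem measurableSet_closedBall,
          ae_restrict_of_ae (Measure.ae_ne volume y0)] with y hy hne
        refine (hg y hy hne).trans_eq ?_
        have hb : y - y0 ∈ ball (0 : E4) 5 := by
          rw [mem_ball_zero_iff]
          have h1 := norm_sub_le y y0
          have h2 : ‖y‖ ≤ 2 := by simpa using hy
          have h3 : ‖y0‖ ≤ 2 := by simpa using hy0
          linarith
        rw [hG, indicator_of_mem hb, div_eq_mul_inv]
    _ ≤ ∫ y, D * G (y - y0) := setIntegral_le_integral hi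
        (Filter.Eventually.of_forall fun y => mul_nonneg hD (hG0 _))
    _ = D * ∫ y, G y := by rw [integral_const_mul, integral_sub_right_eq_self]

end Vale.Agent.P204.Full.LogTest
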