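import Mathlib
import Vale.Agent.P204.Full.Flat

/-!
P204, step 3: the covector field of the logarithmic test function, with bounds on all derivatives.
-/

namespace Vale.Agent.P204.Full.LogTest

open Set Metric
open scoped ContDiff RealInnerProductSpace

/-- a map homogeneous of degree `-d` has `k`-th derivative homogeneous of degree `-d-k` -/
theorem homogeneous_bound {P G : Type*} [NormedAddCommGroup P] [NormedSpace ℝ P]
    [FiniteDimensional ℝ P] [NormedAddCommGroup G] [NormedSpace ℝ G] (ψ : P → G) (d : ℕ)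
    (hs : ContDiffOn ℝ ∞ ψ {0}ᶜ)
    (hh : ∀ c : ℝ, 0 < c → ∀ p, ψ (c • p) = (c ^ d)⁻¹ • ψ p) (k : ℕ) :
    ∃ C, 0 ≤ C ∧ ∀ p, p ≠ 0 →
      ‖iteratedFDerivWithin ℝ k ψ {0}ᶜ p‖ ≤ C / ‖p‖ ^ (d + k) := by
  have := FiniteDimensional.proper ℝ P
  have ho : IsOpen ({0}ᶜ : Set P) := isOpen_compl_singleton
  have hsub : sphere (0 : P) 1 ⊆ {0}ᶜ := fun x hx => ne_zero_of_mem_unit_sphere ⟨x, hx⟩
  have hcont := ((hs.continuousOn_iteratedFDerivWithin (m := k)
    (WithTop.coe_le_coe.2 le_top) ho.uniqueDiffOn).norm).mono hsub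
  obtain ⟨C, hC⟩ := (isCompact_sphere (0 : P) 1).bddAbove_image hcont
  refine ⟨max C 0, le_max_right _ _, fun p hp => ?_⟩
  have hn : 0 < ‖p‖ := norm_pos_iff.2 hp
  have hc : ‖p‖⁻¹ ≠ 0 := inv_ne_zero hn.ne'
  let g : P ≃L[ℝ] P := ContinuousLinearEquiv.smulLeft (Units.mk0 ‖p‖⁻¹ hc)
  have hg : ∀ q : P, g q = ‖p‖⁻¹ • q := fun q => rfl
  have hpre : g ⁻¹' {0}ᶜ = ({0}ᶜ : Set P) := by
    ext q; simp
  have hgp : g p ∈ ({0}ᶜ : Set P) := by
    simpa using hp
  have hcomp := g.iteratedFDerivWithin_comp_right ψ ho.uniqueDiffOn hgp k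
  rw [hpre] at hcomp
  have heq : EqOn ψ ((‖p‖ ^ d)⁻¹ • (ψ ∘ g)) {0}ᶜ := fun q _ => by
    simp only [Pi.smul_apply, Function.comp_apply, hg, hh _ (inv_pos.2 hn), smul_smul]
    rw [inv_pow, inv_inv, inv_mul_cancel₀ (pow_ne_zero _ hn.ne'), one_smul]
  have hsm : ContDiffWithinAt ℝ k (ψ ∘ g) {0}ᶜ p := by
    have := (hs.comp_continuousLinearMap (g : P →L[ℝ] P))
    rw [show ((g : P →L[ℝ] P) : P → P) ⁻¹' {0}ᶜ = ({0}ᶜ : Set P) from hpre] at this
    exact ((this p hp).of_le (WithTop.coe_le_coe.2 le_top))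
  rw [iteratedFDerivWithin_congr heq hp k,
    iteratedFDerivWithin_const_smul_apply hsm ho.uniqueDiffOn hp, hcomp]
  rw [norm_smul]
  have hsphere : g p ∈ sphere (0 : P) 1 := by
    rw [mem_sphere_zero_iff_norm, hg, norm_smul, norm_inv, norm_norm, inv_mul_cancel₀ hn.ne']
  have hop : ‖(g : P →L[ℝ] P)‖ ≤ ‖p‖⁻¹ :=
    ContinuousLinearMap.opNorm_le_bound _ (inv_nonneg.2 hn.le) fun q => by
      show ‖g q‖ ≤ _
      rw [hg, norm_smul, norm_inv, norm_norm]
  calc ‖(‖p‖ ^ d)⁻¹‖ * ‖(iteratedFDerivWithin ℝ k ψ {0}ᶜ (g p)).compContinuousLinearMap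
          fun _ => (g : P →L[ℝ] P)‖
      ≤ (‖p‖ ^ d)⁻¹ * (max C 0 * (‖p‖⁻¹) ^ k) := by
        rw [norm_inv, norm_pow, norm_norm]
        refine mul_le_mul_of_nonneg_left
          ((ContinuousMultilinearMap.norm_compContinuousLinearMap_le _ _).trans ?_) (by positivity)
        rw [Finset.prod_const, Finset.card_univ, Fintype.card_fin]
        exact mul_le_mul ((hC ⟨g p, hsphere, rfl⟩).trans (le_max_left _ _))
          (pow_le_pow_left₀ (norm_nonneg _) hop k) (by positivity) (le_max_right _ _)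
    _ = max C 0 / ‖p‖ ^ (d + k) := by
        rw [pow_add, inv_pow]; field_simp

/-- derivatives of an affine map -/
theorem norm_iteratedFDeriv_affine {E F : Type*} [NormedAddCommGroup E] [NormedSpace ℝ E]
    [NormedAddCommGroup F] [NormedSpace ℝ F] (L : E →L[ℝ] F) (b : F) (i : ℕ) (hi : 1 ≤ i) (x : E) :
    ‖iteratedFDeriv ℝ i (fun y => L y + b) x‖ ≤ (max ‖L‖ 1) ^ i := by
  obtain ⟨j, rfl⟩ := Nat.exists_eq_add_of_le hi
  rw [add_comm 1 j, ← norm_iteratedFDeriv_fderiv]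
  have hd : (fderiv ℝ fun y => L y + b) = fun _ => L := by
    funext y; rw [fderiv_add_const]; exact L.fderiv
  rw [hd]
  rcases Nat.eq_zero_or_pos j with rfl | hj
  · simp
  · rw [iteratedFDeriv_const_of_ne (Nat.pos_iff_ne_zero.1 hj)]
    simp only [Pi.zero_apply, norm_zero]
    positivity

/-- the space of arguments `(u, A u, r)` -/
abbrev Arg : Type := E4 × E4 × ℝ

/-- squared length of an argument -/
noncomputable def sqn (p : Arg) : ℝ := ‖p.1‖ ^ 2 + ‖p.2.1‖ ^ 2 + p.2.2 ^ 2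

theorem sqn_pos {p : Arg} (hp : p ≠ 0) : 0 < sqn p := by
  obtain ⟨u, v, r⟩ := p
  rcases eq_or_ne u 0 with rfl | hu
  · rcases eq_or_ne v 0 with rfl | hv
    · have hr : r ≠ 0 := fun h => hp (by subst h; rfl)
      simp only [sqn, norm_zero]
      positivity
    · simp only [sqn, norm_zero]
      positivity
  · simp only [sqn]
    positivity

theorem contDiff_sqn : ContDiff ℝ ∞ sqn := by
  exact ((contDiff_fst.norm_sq ℝ).add ((contDiff_snd.fst).norm_sq ℝ)).add (contDiff_snd.snd.pow 2)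

/-- radial part of the differential of `log + A sqrt` -/
noncomputable def psi1 (p : Arg) : E4 × E4 := (2 / sqn p) • (p.1, p.2.1)

/-- radial part of the differential of `sqrt` -/
noncomputable def psi0 (p : Arg) : E4 × E4 := (1 / Real.sqrt (sqn p)) • (p.1, p.2.1)

theorem sqn_smul (c : ℝ) (p : Arg) : sqn (c • p) = c ^ 2 * sqn p := by
  simp only [sqn, Prod.smul_fst, Prod.smul_snd, norm_smul, Real.norm_eq_abs, mul_pow, sq_abs,
    smul_eq_mul]
  ring

theorem psi1_bound (k : ℕ) : ∃ C, 0 ≤ C ∧ ∀ p : Arg, p ≠ 0 →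
    ‖iteratedFDerivWithin ℝ k psi1 {0}ᶜ p‖ ≤ C / ‖p‖ ^ (1 + k) := by
  refine homogeneous_bound psi1 1 ?_ (fun c hc p => ?_) k
  · exact (contDiffOn_const.div contDiff_sqn.contDiffOn fun p hp => (sqn_pos hp).ne').smul
      (contDiffOn_fst.prodMk (contDiffOn_snd.fst))
  · simp only [psi1, sqn_smul, Prod.smul_fst, Prod.smul_snd, Prod.smul_mk, smul_smul, pow_one]
    congr 2 <;> field_simp

theorem psi0_bound (k : ℕ) : ∃ C, 0 ≤ C ∧ ∀ p : Arg, p ≠ 0 →
    ‖iteratedFDerivWithin ℝ k psi0 {0}ᶜ p‖ ≤ C / ‖p‖ ^ k := by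
  have := homogeneous_bound psi0 0 ?_ (fun c hc p => ?_) k
  · simpa using this
  · exact (contDiffOn_const.div (contDiff_sqn.contDiffOn.sqrt fun p hp => (sqn_pos hp).ne')
      fun p hp => (Real.sqrt_pos.2 (sqn_pos hp)).ne').smul
      (contDiffOn_fst.prodMk (contDiffOn_snd.fst))
  · simp only [psi0, sqn_smul, Prod.smul_fst, Prod.smul_snd, Prod.smul_mk, smul_smul, pow_zero,
      inv_one, one_smul, Real.sqrt_mul (sq_nonneg c), Real.sqrt_sq hc.le]
    congr 2 <;> field_simp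

/-- the inner product as a bilinear map -/
noncomputable def isl : E4 →L[ℝ] E4 →L[ℝ] ℝ := innerSL ℝ

theorem isl_apply (u v : E4) : isl u v = ⟪u, v⟫ := rfl

/-- invariant inner product frozen at the centre -/
noncomputable def qA (A : E4 →L[ℝ] E4) (u v : E4) : ℝ := ⟪u, v⟫ + ⟪A u, A v⟫

/-- regularised squared distance -/
noncomputable def sA (A : E4 →L[ℝ] E4) (a : E4) (r : ℝ) (z : E4) : ℝ :=
  qA A (z - a) (z - a) + r ^ 2

/-- differential of `log s + 2 K sqrt s`, divided by `2 qA(z - a, ·)` -/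
noncomputable def phiA (K : ℝ) (A : E4 →L[ℝ] E4) (a : E4) (r : ℝ) (z : E4) : ℝ :=
  2 / sA A a r z + K / Real.sqrt (sA A a r z)

/-- the test covector field -/
noncomputable def xi (K : ℝ) (A : E4 →L[ℝ] E4) (a : E4) (r : ℝ) (z : E4) : E4 →L[ℝ] ℝ :=
  phiA K A a r z • (isl (z - a) + (isl (A (z - a))).comp A)

theorem xi_apply (K : ℝ) (A : E4 →L[ℝ] E4) (a : E4) (r : ℝ) (z v : E4) :
    xi K A a r z v = phiA K A a r z * qA A (z - a) v := by
  simp [xi, qA, isl_apply, inner_sub_left]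
  ring

theorem qA_self (A : E4 →L[ℝ] E4) (u : E4) : qA A u u = ‖u‖ ^ 2 + ‖A u‖ ^ 2 := by
  simp [qA]

theorem sA_pos (A : E4 →L[ℝ] E4) (a : E4) {r : ℝ} (hr : 0 < r) (z : E4) : 0 < sA A a r z := by
  rw [sA, qA_self]; positivity

theorem contDiff_sA (A : E4 →L[ℝ] E4) (a : E4) (r : ℝ) : ContDiff ℝ ∞ (sA A a r) := by
  have h : sA A a r = fun z => ‖z - a‖ ^ 2 + ‖A (z - a)‖ ^ 2 + r ^ 2 := by
    funext z; rw [sA, qA_self]
  rw [h]
  exact (((contDiff_id.sub contDiff_const).norm_sq ℝ).add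
    ((A.contDiff.comp (contDiff_id.sub contDiff_const)).norm_sq ℝ)).add contDiff_const

theorem contDiff_phiA (K : ℝ) (A : E4 →L[ℝ] E4) (a : E4) {r : ℝ} (hr : 0 < r) :
    ContDiff ℝ ∞ (phiA K A a r) :=
  (contDiff_const.div (contDiff_sA A a r) fun z => (sA_pos A a hr z).ne').add
    (contDiff_const.div ((contDiff_sA A a r).sqrt fun z => (sA_pos A a hr z).ne') fun z =>
      (Real.sqrt_pos.2 (sA_pos A a hr z)).ne')

theorem contDiff_xi (K : ℝ) (A : E4 →L[ℝ] E4) (a : E4) {r : ℝ} (hr : 0 < r) :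
    ContDiff ℝ ∞ (xi K A a r) := by
  have h1 : ContDiff ℝ ∞ fun z : E4 =>
      isl (z - a) + (isl (A (z - a))).comp A := by fun_prop
  exact (contDiff_phiA K A a hr).smul h1

/-- the scale `(|z-a|² + r²)^(1/2)` -/
noncomputable def dist2 (a : E4) (r : ℝ) (z : E4) : ℝ := Real.sqrt (‖z - a‖ ^ 2 + r ^ 2)

theorem dist2_pos (a : E4) {r : ℝ} (hr : 0 < r) (z : E4) : 0 < dist2 a r z :=
  Real.sqrt_pos.2 (by positivity)

/-- derivative bounds of the test covector field, uniform in the centre, the scale and `A` -/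
theorem xi_bound (K M R : ℝ) (n : ℕ) : ∃ C, 0 ≤ C ∧ ∀ A : E4 →L[ℝ] E4, ‖A‖ ≤ M →
    ∀ a z : E4, ∀ r : ℝ, 0 < r → dist2 a r z ≤ R →
      ‖iteratedFDeriv ℝ n (xi K A a r) z‖ ≤ C / dist2 a r z ^ (1 + n) := by
  choose C1 hC1 h1 using psi1_bound
  choose C0 hC0 h0 using psi0_bound
  set D := max (max M 1) 0 + 1 with hD
  have hD1 : 1 ≤ D := by simp [hD]
  set R1 := max R 1 with hR1
  let Cn : ℝ := ∑ i ∈ Finset.range (n + 1), (C1 i + |K| * C0 i * R1) * 2 ^ (1 + i) * R1 ^ (n - i)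
  refine ⟨(1 + D) * (n.factorial * Cn * D ^ n), ?_, fun A hA a z r hr hR => ?_⟩
  · have : 0 ≤ Cn := Finset.sum_nonneg fun i _ => by
      have := hC1 i; have := hC0 i; positivity
    positivity
  let L : E4 →L[ℝ] Arg := (ContinuousLinearMap.id ℝ E4).prod (A.prod 0)
  let ι : E4 → Arg := fun y => L y + (-a, -A a, r)
  let Λ : E4 × E4 →L[ℝ] (E4 →L[ℝ] ℝ) :=
    isl.comp (ContinuousLinearMap.fst ℝ E4 E4) +
      (((ContinuousLinearMap.compL ℝ E4 E4 ℝ).flip A).comp isl).comp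
        (ContinuousLinearMap.snd ℝ E4 E4)
  let ψ : Arg → E4 × E4 := psi1 + K • psi0
  have hι : ∀ y, ι y = (y - a, A (y - a), r) := fun y => by
    simp [ι, L, sub_eq_add_neg]
  have hne : ∀ y, ι y ∈ ({0}ᶜ : Set Arg) := fun y h => by
    rw [mem_singleton_iff, hι] at h
    exact hr.ne' (congrArg (fun p : Arg => p.2.2) h)
  have hs : ∀ y, sA A a r y = sqn (ι y) := fun y => by rw [hι, sA, qA_self]; rfl
  have hxi : xi K A a r = Λ ∘ (ψ ∘ ι) := by
    funext y
    ext v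
    simp only [xi_apply, phiA, hs, Function.comp_apply, ψ, Pi.add_apply, Pi.smul_apply, psi1, psi0,
      map_add, map_smul, add_apply, smul_apply, smul_eq_mul, qA]
    simp [Λ, hι, isl_apply, inner_sub_left]
    ring
  have hs1 : ContDiffOn ℝ ∞ psi1 {0}ᶜ :=
    (contDiffOn_const.div contDiff_sqn.contDiffOn fun p hp => (sqn_pos hp).ne').smul
      (contDiffOn_fst.prodMk (contDiffOn_snd.fst))
  have hs0 : ContDiffOn ℝ ∞ psi0 {0}ᶜ :=
    (contDiffOn_const.div (contDiff_sqn.contDiffOn.sqrt fun p hp => (sqn_pos hp).ne')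
      fun p hp => (Real.sqrt_pos.2 (sqn_pos hp)).ne').smul
      (contDiffOn_fst.prodMk (contDiffOn_snd.fst))
  have hψ : ContDiffOn ℝ ∞ ψ {0}ᶜ := hs1.add (hs0.const_smul K)
  have hιs : ContDiff ℝ ∞ ι := L.contDiff.add contDiff_const
  set ρ := dist2 a r z with hρ
  have hρ0 : 0 < ρ := dist2_pos a hr z
  set p := ι z with hp
  have hp0 : p ≠ 0 := hne z
  have hpn : ρ / 2 ≤ ‖p‖ := by
    have e1 : ‖z - a‖ ≤ ‖p‖ := by rw [hp, hι]; exact le_max_left _ _
    have e2 : r ≤ ‖p‖ := by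
      have : ‖r‖ ≤ ‖p‖ := by
        rw [hp, hι]; exact le_max_of_le_right (le_max_of_le_right le_rfl)
      exact (Real.le_norm_self r).trans this
    have : ρ ≤ 2 * ‖p‖ := by
      rw [hρ, dist2, Real.sqrt_le_iff]
      refine ⟨by positivity, ?_⟩
      nlinarith [norm_nonneg (z - a), mul_self_le_mul_self (norm_nonneg (z - a)) e1,
        mul_self_le_mul_self hr.le e2, sq_nonneg ‖p‖]
    linarith
  have hρR : ρ ≤ R1 := hR.trans (le_max_left _ _)
  have hR1pos : 1 ≤ R1 := le_max_right _ _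
  have hψb : ∀ i ≤ n, ‖iteratedFDerivWithin ℝ i ψ {0}ᶜ p‖ ≤ Cn / ρ ^ (1 + n) := by
    intro i hi
    have hu : UniqueDiffOn ℝ ({0}ᶜ : Set Arg) := isOpen_compl_singleton.uniqueDiffOn
    have e0 : ContDiffWithinAt ℝ i psi0 {0}ᶜ p := (hs0 p hp0).of_le (WithTop.coe_le_coe.2 le_top)
    have e1 : ContDiffWithinAt ℝ i psi1 {0}ᶜ p := (hs1 p hp0).of_le (WithTop.coe_le_coe.2 le_top)
    have e2 : ContDiffWithinAt ℝ i (K • psi0) {0}ᶜ p := e0.const_smul K
    rw [show ψ = psi1 + K • psi0 from rfl, iteratedFDerivWithin_add_apply e1 e2 hu hp0,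
      iteratedFDerivWithin_const_smul_apply e0 hu hp0]
    refine (norm_add_le _ _).trans ?_
    rw [norm_smul, Real.norm_eq_abs]
    have b1 : C1 i / ‖p‖ ^ (1 + i) ≤ C1 i * 2 ^ (1 + i) / ρ ^ (1 + i) := by
      have := pow_le_pow_left₀ (by positivity) hpn (1 + i)
      calc C1 i / ‖p‖ ^ (1 + i) ≤ C1 i / (ρ / 2) ^ (1 + i) :=
            div_le_div_of_nonneg_left (hC1 i) (by positivity) this
        _ = _ := by rw [div_pow]; field_simp
    have b0 : C0 i / ‖p‖ ^ i ≤ C0 i * R1 * 2 ^ (1 + i) / ρ ^ (1 + i) := by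
      have := pow_le_pow_left₀ (by positivity) hpn i
      calc C0 i / ‖p‖ ^ i ≤ C0 i / (ρ / 2) ^ i :=
            div_le_div_of_nonneg_left (hC0 i) (by positivity) this
        _ = C0 i * ρ * 2 ^ i / ρ ^ (1 + i) := by rw [div_pow, pow_add, pow_one]; field_simp
        _ ≤ _ := by
            refine div_le_div_of_nonneg_right ?_ (by positivity)
            refine mul_le_mul (mul_le_mul_of_nonneg_left hρR (hC0 i))
              (pow_le_pow_right₀ one_le_two (by omega)) (by positivity) ?_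
            exact mul_nonneg (hC0 i) (by positivity)
    have b2 : ‖iteratedFDerivWithin ℝ i psi1 {0}ᶜ p‖ +
        |K| * ‖iteratedFDerivWithin ℝ i psi0 {0}ᶜ p‖ ≤
          (C1 i + |K| * C0 i * R1) * 2 ^ (1 + i) / ρ ^ (1 + i) := by
      calc _ ≤ C1 i * 2 ^ (1 + i) / ρ ^ (1 + i) + |K| * (C0 i * R1 * 2 ^ (1 + i) / ρ ^ (1 + i)) :=
            add_le_add ((h1 i p hp0).trans b1)
              (mul_le_mul_of_nonneg_left ((h0 i p hp0).trans b0) (abs_nonneg _))
        _ = _ := by ring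
    refine b2.trans ?_
    have hpow : ρ ^ (1 + n) ≤ ρ ^ (1 + i) * R1 ^ (n - i) := by
      rw [show 1 + n = (1 + i) + (n - i) by omega, pow_add]
      exact mul_le_mul_of_nonneg_left (pow_le_pow_left₀ hρ0.le hρR _) (by positivity)
    rw [div_le_div_iff₀ (by positivity) (by positivity)]
    calc (C1 i + |K| * C0 i * R1) * 2 ^ (1 + i) * ρ ^ (1 + n)
        ≤ (C1 i + |K| * C0 i * R1) * 2 ^ (1 + i) * (ρ ^ (1 + i) * R1 ^ (n - i)) :=
          mul_le_mul_of_nonneg_left hpow (by have := hC1 i; have := hC0 i; positivity)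
      _ = ((C1 i + |K| * C0 i * R1) * 2 ^ (1 + i) * R1 ^ (n - i)) * ρ ^ (1 + i) := by ring
      _ ≤ Cn * ρ ^ (1 + i) := mul_le_mul_of_nonneg_right
          (Finset.single_le_sum (f := fun i => (C1 i + |K| * C0 i * R1) * 2 ^ (1 + i) * R1 ^ (n - i))
            (fun j _ => by have := hC1 j; have := hC0 j; positivity)
            (Finset.mem_range.2 (by omega))) (by positivity)
  have hLn : ‖L‖ ≤ D := by
    refine ContinuousLinearMap.opNorm_le_bound _ (by positivity) fun y => ?_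
    simp only [L, ContinuousLinearMap.prod_apply, ContinuousLinearMap.id_apply,
      zero_apply, Prod.norm_def, norm_zero]
    refine max_le (le_mul_of_one_le_left (norm_nonneg _) hD1) (max_le ?_ (by positivity))
    exact (A.le_opNorm y).trans (mul_le_mul_of_nonneg_right
      (hA.trans (by simp [hD]; linarith [le_max_left (max M 1) 0, le_max_left M 1])) (norm_nonneg _))
  have hcomp : ‖iteratedFDeriv ℝ n (ψ ∘ ι) z‖ ≤ n.factorial * (Cn / ρ ^ (1 + n)) * D ^ n := by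
    refine norm_iteratedFDeriv_comp_le' (range_subset_iff.2 hne)
      isOpen_compl_singleton.uniqueDiffOn hψ hιs (WithTop.coe_le_coe.2 le_top) z hψb fun i hi _ => ?_
    exact (norm_iteratedFDeriv_affine L _ i hi z).trans
      (pow_le_pow_left₀ (by positivity) (max_le hLn hD1) i)
  have hΛ : ‖Λ‖ ≤ 1 + D := by
    refine ContinuousLinearMap.opNorm_le_bound _ (by positivity) fun q => ?_
    refine ContinuousLinearMap.opNorm_le_bound _ (by positivity) fun v => ?_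
    simp [Λ]
    have i1 := abs_real_inner_le_norm q.1 v
    have i2 := abs_real_inner_le_norm q.2 (A v)
    have i3 : ‖A v‖ ≤ D * ‖v‖ := (A.le_opNorm v).trans (mul_le_mul_of_nonneg_right
      (hA.trans (by simp [hD]; linarith [le_max_left (max M 1) 0, le_max_left M 1])) (norm_nonneg _))
    calc _ ≤ |⟪q.1, v⟫| + |⟪q.2, A v⟫| := abs_add_le _ _
      _ ≤ ‖q‖ * ‖v‖ + ‖q‖ * (D * ‖v‖) :=
          add_le_add (i1.trans (mul_le_mul_of_nonneg_right (norm_fst_le q) (norm_nonneg _)))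
            (i2.trans (mul_le_mul (norm_snd_le q) i3 (norm_nonneg _) (norm_nonneg _)))
      _ = _ := by ring
  have hcd : ContDiff ℝ ∞ (ψ ∘ ι) := hψ.comp_contDiff hιs hne
  rw [hxi]
  refine (Λ.norm_iteratedFDeriv_comp_left hcd.contDiffAt
    (WithTop.coe_le_coe.2 le_top)).trans ?_
  calc ‖Λ‖ * ‖iteratedFDeriv ℝ n (ψ ∘ ι) z‖
      ≤ (1 + D) * (n.factorial * (Cn / ρ ^ (1 + n)) * D ^ n) :=
        mul_le_mul hΛ hcomp (norm_nonneg _) (by positivity)
    _ = _ := by ring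

end Vale.Agent.P204.Full.LogTest
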