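import Vale.Agent.P204.Full.Global.Norms
import Vale.Agent.P204.Full.LogTest.Estimate
import Vale.Agent.P204.Full.LogTest.Integral

/-!
P204, step 3: the test form on the manifold and the semiclassical bound of its anti-invariant part.
-/

namespace Vale.Agent.P204.Full.LogTest

open MeasureTheory Set Metric Filter
open scoped Manifold ContDiff Topology

universe u

variable {M : Type u} [TopologicalSpace M] [ChartedSpace E4 M]

/-- the cut-off that makes the matrix of `J` a global function on the model space -/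
noncomputable def theta : ContDiffBump (0 : E4) where
  rIn := 7 / 2
  rOut := 4
  rIn_pos := by norm_num
  rIn_lt_rOut := by norm_num

/-- the matrix of `J` in a chart of the atlas, cut off -/
noncomputable def jt (S : Setup M) (i : Fin S.at_.n) (z : E4) : E4 →L[ℝ] E4 :=
  theta z • Matrix.toEuclideanCLM (𝕜 := ℝ) (readJ (S.at_.chart i) S.J z)

variable (S : Setup M) (i : Fin S.at_.n)

theorem jt_apply {z : E4} (hz : z ∈ closedBall (0 : E4) 3) (v : E4) :
    jt S i z v = WithLp.toLp 2 ((readJ (S.at_.chart i) S.J z).mulVec v.ofLp) := by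
  have h1 : theta z = 1 := theta.one_of_mem_closedBall
    (closedBall_subset_closedBall (show (3 : ℝ) ≤ 7 / 2 by norm_num) hz)
  rw [jt, h1, one_smul]
  rfl

theorem matL_jt {z : E4} (hz : z ∈ closedBall (0 : E4) 3) :
    matL (jt S i z) = readJ (S.at_.chart i) S.J z := by
  funext p a
  simp [matL, jt_apply S i hz, Matrix.mulVec, dotProduct, ev4_coord]

variable [IsManifold (𝓡 4) ∞ M]

theorem contDiff_jt : ContDiff ℝ ∞ (jt S i) := by
  refine contDiff_clm_apply_iff.2 fun v => contDiff_iff_contDiffAt.2 fun z => ?_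
  by_cases hz : z ∈ closedBall (0 : E4) 4
  · have ht := S.at_.ball_subset i hz
    have hn := (S.at_.chart i).open_target.mem_nhds ht
    refine (contDiffAt_piLp 2).2 fun p => ?_
    have h : ContDiffAt ℝ ∞ (fun y => theta y * ∑ q, readJ (S.at_.chart i) S.J y p q * v q) z :=
      theta.contDiff.contDiffAt.mul (ContDiffAt.sum fun q _ =>
        ((contDiffOn_readJ S.isJ (S.at_.mem_maximal i) p q).contDiffAt hn).mul contDiffAt_const)
    simpa [jt, Matrix.mulVec, dotProduct] using h
  · refine (contDiffAt_const (c := (0 : E4))).congr_of_eventuallyEq ?_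
    filter_upwards [isClosed_closedBall.isOpen_compl.mem_nhds hz] with y hy
    have hy' : (4 : ℝ) < dist y 0 := not_le.1 hy
    have : theta y = 0 := theta.zero_of_le_dist hy'.le
    simp [jt, this]

omit [IsManifold (𝓡 4) ∞ M] in
theorem jt_sq : ∀ z ∈ closedBall (0 : E4) 3, ∀ v, jt S i z (jt S i z v) = -v := fun z hz v => by
  have ht : z ∈ (S.at_.chart i).target := S.closedBall3_subset i hz
  rw [jt_apply S i hz, jt_apply S i hz]
  ext p
  simp [Matrix.mulVec_mulVec, readJ_mul_self S.isJ (S.at_.mem_maximal i) ht, Matrix.neg_mulVec]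

variable [T2Space M]

theorem isTwoForm_test (K : ℝ) (a : E4) {r : ℝ} (hr : 0 < r) :
    IsTwoForm (extC (S.at_.chart i) (testC K (jt S i) a r)) :=
  isTwoForm_extC (S.at_.mem_maximal i) (isCompact_closedBall (0 : E4) 3) (S.closedBall3_subset i)
    (anti_testC K (jt S i) a r) (contDiff_testC K (jt S i) a r hr (contDiff_jt S i)).contDiffOn
    fun _ _ hy => testC_eq_zero K (jt S i) a r hy

omit [IsManifold (𝓡 4) ∞ M] [T2Space M] in
/-- bound on the derivatives of a pullback by a transition map on a compact piece of the overlap -/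
theorem exists_trans_bound {c c' : OpenPartialHomeomorph M E4} (hc : IsChart c) (hc' : IsChart c')
    {Q : Set E4} (hQ : IsCompact Q) (hQU : Q ⊆ ov c c') (m : ℕ) :
    ∃ C, 0 ≤ C ∧ ∀ h : E4 → C2, ContDiff ℝ ∞ h → ∀ y ∈ Q, ∀ l ≤ m,
      ‖iteratedFDeriv ℝ l (fun z => pullC (jac (tr c c') z) (h (tr c c' z))) y‖ ≤
        C * ∑ q ∈ Finset.range (l + 1), ‖iteratedFDeriv ℝ q h (tr c c' y)‖ := by
  have hU := isOpen_ov c c'
  obtain ⟨C1, hC10, hC1⟩ := exists_clm_bound hU hQ hQU
    (contDiffOn_pullL fun p a => contDiffOn_jac_tr hc hc' p a) m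
  choose B hB using fun q : ℕ => hQ.exists_bound_of_continuousOn
    ((continuousOn_iteratedFDeriv_of_isOpen hU (contDiffOn_tr hc hc') q).mono hQU)
  set D := 1 + ∑ q ∈ Finset.range (m + 1), max (B q) 0 with hD
  have hD1 : 1 ≤ D := by
    have : 0 ≤ ∑ q ∈ Finset.range (m + 1), max (B q) 0 :=
      Finset.sum_nonneg fun q _ => le_max_right _ _
    linarith
  refine ⟨C1 * ((m + 1) * (m.factorial * D ^ m)), by positivity, fun h hh y hy l hl => ?_⟩
  have hg : ContDiffOn ℝ ∞ (fun z => h (tr c c' z)) (ov c c') :=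
    hh.comp_contDiffOn (contDiffOn_tr hc hc')
  refine (hC1 _ hg y hy l hl).trans ?_
  rw [mul_assoc C1]
  refine mul_le_mul_of_nonneg_left ?_ hC10
  set Sh := ∑ q ∈ Finset.range (l + 1), ‖iteratedFDeriv ℝ q h (tr c c' y)‖ with hSh
  have hSh0 : 0 ≤ Sh := Finset.sum_nonneg fun _ _ => norm_nonneg _
  have hone : ∀ k ∈ Finset.range (l + 1),
      ‖iteratedFDeriv ℝ k (fun z => h (tr c c' z)) y‖ ≤ m.factorial * D ^ m * Sh := by
    intro k hk
    have hkl : k ≤ l := Nat.lt_succ_iff.1 (Finset.mem_range.1 hk)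
    rw [← iteratedFDerivWithin_of_isOpen k hU (hQU hy)]
    refine (norm_iteratedFDerivWithin_comp_le (g := h) (N := ∞) hh.contDiffOn
      (contDiffOn_tr hc hc') (WithTop.coe_le_coe.2 le_top) uniqueDiffOn_univ hU.uniqueDiffOn
      (mapsTo_univ _ _) (hQU hy) (C := Sh) (D := D) (fun q hq => ?_) fun q hq1 hq => ?_).trans ?_
    · rw [iteratedFDerivWithin_univ]
      exact Finset.single_le_sum (f := fun q => ‖iteratedFDeriv ℝ q h (tr c c' y)‖)
        (fun _ _ => norm_nonneg _) (Finset.mem_range.2 (by omega))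
    · rw [iteratedFDerivWithin_of_isOpen q hU (hQU hy)]
      have h1 : max (B q) 0 ≤ D := by
        have := Finset.single_le_sum (f := fun q => max (B q) 0) (fun _ _ => le_max_right _ _)
          (Finset.mem_range.2 (show q < m + 1 by omega))
        linarith
      exact ((hB q y hy).trans ((le_max_left _ _).trans h1)).trans
        (le_self_pow₀ hD1 (by omega))
    · calc (k.factorial : ℝ) * Sh * D ^ k ≤ m.factorial * Sh * D ^ m := by
            gcongr
            · omega
            · omega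
        _ = _ := by ring
  refine (Finset.sum_le_sum hone).trans ?_
  rw [Finset.sum_const, Finset.card_range, nsmul_eq_mul, ← mul_assoc]
  refine mul_le_mul_of_nonneg_right ?_ hSh0
  refine mul_le_mul_of_nonneg_right ?_ (by positivity)
  exact_mod_cast Nat.succ_le_succ hl

omit [IsManifold (𝓡 4) ∞ M] [T2Space M] in
theorem exists_dist_lower :
    ∃ q, 0 < q ∧ ∀ (i j : Fin S.at_.n) (a : E4) (x : M), (S.at_.chart i).symm a = x →
      a ∈ closedBall (0 : E4) 3 → ∃ y0 ∈ closedBall (0 : E4) 2, ∀ y ∈ closedBall (0 : E4) 2,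
        y ∈ ov (S.at_.chart j) (S.at_.chart i) →
        tr (S.at_.chart j) (S.at_.chart i) y ∈ closedBall (0 : E4) 3 →
          q * ‖y - y0‖ ≤ ‖tr (S.at_.chart j) (S.at_.chart i) y - a‖ := by
  obtain ⟨cl, hcl, Cu, hCu, hbl⟩ := S.at_.emb_bilip
  refine ⟨cl / (2 * Cu), by positivity, fun i j a x hx ha => ?_⟩
  have h24 : closedBall (0 : E4) 2 ⊆ closedBall 0 4 := closedBall_subset_closedBall (by norm_num)
  have h34 : closedBall (0 : E4) 3 ⊆ closedBall 0 4 := closedBall_subset_closedBall (by norm_num)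
  set f := fun y => ‖S.at_.emb ((S.at_.chart j).symm y) - S.at_.emb x‖ with hf
  have hlip : LipschitzOnWith (Real.toNNReal Cu) f (closedBall (0 : E4) 2) := by
    refine LipschitzOnWith.of_dist_le_mul fun y hy z hz => ?_
    rw [Real.dist_eq, dist_eq_norm, Real.coe_toNNReal _ hCu.le]
    refine (abs_norm_sub_norm_le _ _).trans ?_
    rw [sub_sub_sub_cancel_right]
    exact (hbl j y (h24 hy) z (h24 hz)).2
  obtain ⟨y0, hy0, hmin⟩ := (isCompact_closedBall (0 : E4) 2).exists_isMinOn
    (nonempty_closedBall.2 (by norm_num)) hlip.continuousOn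
  refine ⟨y0, hy0, fun y hy hov ht => ?_⟩
  have h1 : f y0 ≤ f y := hmin hy
  have h2 : cl * ‖y - y0‖ ≤ f y + f y0 :=
    ((hbl j y (h24 hy) y0 (h24 hy0)).1).trans (by
      rw [hf]
      exact (norm_sub_le_norm_sub_add_norm_sub _ (S.at_.emb x) _).trans_eq
        (by rw [norm_sub_rev (S.at_.emb x)]))
  have h3 : f y ≤ Cu * ‖tr (S.at_.chart j) (S.at_.chart i) y - a‖ := by
    have := (hbl i _ (h34 ht) a (h34 ha)).2
    rwa [symm_tr hov, hx] at this
  rw [div_mul_eq_mul_div, div_le_iff₀ (by positivity)]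
  linarith

/-- the anti-invariant part of the test form is bounded in the semiclassical norm -/
theorem exists_sN_bound (K : ℝ) (m : ℕ) : ∃ C, 0 ≤ C ∧ ∀ a ∈ closedBall (0 : E4) 1,
    ∀ e : ℝ, 0 < e → e ≤ 1 →
      S.sN m e (pm S.J (extC (S.at_.chart i) (testC K (jt S i) a e))) ≤ C := by
  choose Cp hCp0 hCp using fun k : ℕ => pm_bound (contDiff_jt S i) (jt_sq S i) K k
  obtain ⟨CI, hCI0, hCI⟩ := exists_integral_bound
  obtain ⟨q, hq, hdl⟩ := exists_dist_lower S
  set ci := S.at_.chart i with hci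
  have hcc := S.at_.mem_maximal i
  have h34 : closedBall (0 : E4) 3 ⊆ ci.target := S.closedBall3_subset i
  have hKc : IsClosed (ci.symm '' closedBall (0 : E4) 3) :=
    ((isCompact_closedBall (0 : E4) 3).image_of_continuousOn
      (ci.symm.continuousOn.mono h34)).isClosed
  have h24 : ∀ j, closedBall (0 : E4) 2 ⊆ (S.at_.chart j).target := fun j =>
    (closedBall_subset_closedBall (by norm_num)).trans (S.at_.ball_subset j)
  let Q : Fin S.at_.n → Set E4 := fun j => closedBall (0 : E4) 2 ∩
    (S.at_.chart j).symm ⁻¹' (ci.symm '' closedBall (0 : E4) 3)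
  have hQc : ∀ j, IsCompact (Q j) := fun j =>
    IsCompact.of_isClosed_subset (isCompact_closedBall _ _)
      (((S.at_.chart j).symm.continuousOn.mono (h24 j)).preimage_isClosed_of_isClosed
        isClosed_closedBall hKc) inter_subset_left
  have hQo : ∀ j, Q j ⊆ ov (S.at_.chart j) ci := by
    rintro j y ⟨hy, z, hz, hzy⟩
    refine ⟨h24 j hy, ?_⟩
    show (S.at_.chart j).symm y ∈ ci.source
    rw [← hzy]
    exact ci.map_target (h34 hz)
  choose Ct hCt0 hCt using fun j =>
    exists_trans_bound (S.at_.mem_maximal j) hcc (hQc j) (hQo j) m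
  set P := ∑ k ∈ Finset.range (m + 1), Cp k * 5 ^ m with hP
  have hP0 : 0 ≤ P := Finset.sum_nonneg fun k _ => by have := hCp0 k; positivity
  refine ⟨∑ j, ∑ _l ∈ Finset.range (m + 1),
    Real.sqrt ((Ct j * P) ^ 2 / q ^ 2 * CI), by positivity, fun a ha e he he1 => ?_⟩
  have ha3 : a ∈ closedBall (0 : E4) 3 := closedBall_subset_closedBall (by norm_num) ha
  set w := extC ci (testC K (jt S i) a e) with hw
  have hwt : IsTwoForm w := isTwoForm_test S i K a he
  have hpm : IsAltField (pm S.J w) := (isTwoForm_pm S.isJ hwt).isAltField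
  set h := fun z => pmC (matL (jt S i z)) (testC K (jt S i) a e z) with hh
  have hhs : ContDiff ℝ ∞ h := by
    have : h = fun z => restMap (jt S i) z (xi K (jt S i a) a e z) :=
      funext fun z => pmC_testC he (contDiff_jt S i) (jt_sq S i) z
    rw [this]
    exact (contDiff_restMap (contDiff_jt S i)).clm_apply (contDiff_xi K _ a he)
  have hread : ∀ z ∈ ci.target, readC ci (pm S.J w) z = h z := fun z hz => by
    rw [readC_pm S.isJ hwt.isAltField hcc hz, hw, readC_extC hcc _ hz, hh]
    by_cases hz3 : z ∈ closedBall (0 : E4) 3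
    · simp only [matL_jt S i hz3]
    · funext b c
      simp [pmC, pullC, testC_eq_zero K (jt S i) a e hz3]
  have hzero : ∀ x, x ∉ ci.symm '' closedBall (0 : E4) 3 → w x = 0 := fun x hx => by
    by_cases hxs : x ∈ ci.source
    · funext u v
      have h0 : testC K (jt S i) a e (ci x) = 0 :=
        testC_eq_zero K (jt S i) a e fun h3 => hx ⟨ci x, h3, ci.left_inv hxs⟩
      simp [hw, extC, indicator_of_mem hxs, pushC, h0]
    · simp [hw, extC, indicator_of_notMem hxs]
  refine Finset.sum_le_sum fun j _ => Finset.sum_le_sum fun l hl => ?_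
  have hlm : l ≤ m := Nat.lt_succ_iff.1 (Finset.mem_range.1 hl)
  obtain ⟨y0, hy0, hdist⟩ := hdl i j a (ci.symm a) rfl ha3
  have hpt : ∀ y ∈ closedBall (0 : E4) 2, y ≠ y0 →
      (e ^ l * ‖iteratedFDeriv ℝ l (S.read j (pm S.J w)) y‖) ^ 2 ≤
        (Ct j * P) ^ 2 / q ^ 2 / ‖y - y0‖ ^ 2 := by
    intro y hy hne
    have hny : 0 < ‖y - y0‖ := norm_pos_iff.2 (sub_ne_zero.2 hne)
    by_cases hyQ : y ∈ Q j
    · set τ := tr (S.at_.chart j) ci with hτ
      have ht3 : τ y ∈ closedBall (0 : E4) 3 := by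
        obtain ⟨-, z, hz, hzy⟩ := hyQ
        show ci ((S.at_.chart j).symm y) ∈ _
        rw [← hzy, ci.right_inv (h34 hz)]
        exact hz
      have hev : S.read j (pm S.J w) =ᶠ[𝓝 y] fun z => pullC (jac τ z) (h (τ z)) := by
        filter_upwards [(isOpen_ov (S.at_.chart j) ci).mem_nhds (hQo j hyQ)] with z hz
        show readC (S.at_.chart j) (pm S.J w) z = _
        rw [hpm.readC_tr (S.at_.mem_maximal j) hcc hz, hread _ (tr_mem_ov hz).1]
      rw [(hev.iteratedFDeriv ℝ l).self_of_nhds]
      set ρ := dist2 a e (τ y) with hρ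
      have hρ0 : 0 < ρ := dist2_pos a he _
      have hρe : e ≤ ρ := Real.le_sqrt_of_sq_le (by linarith [sq_nonneg ‖τ y - a‖])
      have hρd : q * ‖y - y0‖ ≤ ρ := (hdist y hy (hQo j hyQ) ht3).trans
        (Real.le_sqrt_of_sq_le (by linarith [sq_nonneg e]))
      have hρ5 : ρ ≤ 5 := by
        rw [hρ, dist2, Real.sqrt_le_iff]
        refine ⟨by norm_num, ?_⟩
        have h4 : ‖τ y - a‖ ≤ 4 := by
          have := norm_sub_le (τ y) a
          have h2 : ‖τ y‖ ≤ 3 := by simpa using ht3
          have h3 : ‖a‖ ≤ 1 := by simpa using ha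
          linarith
        have := pow_le_pow_left₀ (norm_nonneg _) h4 2
        have := pow_le_one₀ (n := 2) he.le he1
        linarith
      have hs : ∑ k ∈ Finset.range (l + 1), ‖iteratedFDeriv ℝ k h (τ y)‖ ≤ P / ρ ^ (1 + l) := by
        rw [hP, Finset.sum_div]
        refine (Finset.sum_le_sum fun k hk => ?_).trans (Finset.sum_le_sum_of_subset_of_nonneg
          (Finset.range_subset_range.2 (show l + 1 ≤ m + 1 by omega)) fun k _ _ => by
            have := hCp0 k; positivity)
        refine (hCp k a ha e he he1 (τ y)).trans ?_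
        have hkl : k ≤ l := Nat.lt_succ_iff.1 (Finset.mem_range.1 hk)
        rw [div_le_div_iff₀ (by positivity) (by positivity)]
        calc Cp k * ρ ^ (1 + l) = Cp k * (ρ ^ (1 + k) * ρ ^ (l - k)) := by
              rw [← pow_add]; congr 2; omega
          _ ≤ Cp k * (ρ ^ (1 + k) * 5 ^ m) := by
              refine mul_le_mul_of_nonneg_left (mul_le_mul_of_nonneg_left ?_ (by positivity))
                (hCp0 k)
              exact (pow_le_pow_left₀ hρ0.le hρ5 _).trans
                (pow_le_pow_right₀ (by norm_num) (by omega))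
          _ = _ := by ring
      have hb := (hCt j h hhs y hyQ l hlm).trans (mul_le_mul_of_nonneg_left hs (hCt0 j))
      have hb' : e ^ l * ‖iteratedFDeriv ℝ l (fun z => pullC (jac τ z) (h (τ z))) y‖ ≤
          Ct j * P / (q * ‖y - y0‖) := by
        calc _ ≤ ρ ^ l * (Ct j * (P / ρ ^ (1 + l))) :=
              mul_le_mul (pow_le_pow_left₀ he.le hρe l) hb (norm_nonneg _) (by positivity)
          _ = Ct j * P / ρ := by rw [pow_add, pow_one]; field_simp
          _ ≤ _ := div_le_div_of_nonneg_left (mul_nonneg (hCt0 j) hP0) (by positivity) hρd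
      refine (pow_le_pow_left₀ (by positivity) hb' 2).trans_eq ?_
      rw [div_pow, mul_pow q]
      field_simp
    · have hev : S.read j (pm S.J w) =ᶠ[𝓝 y] fun _ => (0 : C2) := by
        have hyn : (S.at_.chart j).symm y ∈ (ci.symm '' closedBall (0 : E4) 3)ᶜ :=
          fun hm => hyQ ⟨hy, hm⟩
        filter_upwards [(S.at_.chart j).symm.continuousAt (h24 j hy)
          (hKc.isOpen_compl.mem_nhds hyn)] with z hz
        funext b c
        show pm S.J w ((S.at_.chart j).symm z) _ _ = 0
        simp [pm, hzero _ hz]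
      rw [(hev.iteratedFDeriv ℝ l).self_of_nhds,
        show iteratedFDeriv ℝ l (fun _ : E4 => (0 : C2)) y = 0 by simp]
      simp only [norm_zero, mul_zero, ne_eq, OfNat.ofNat_ne_zero, not_false_eq_true, zero_pow]
      positivity
  have hint := hCI (fun y => (e ^ l * ‖iteratedFDeriv ℝ l (S.read j (pm S.J w)) y‖) ^ 2)
    ((Ct j * P) ^ 2 / q ^ 2) y0 hy0 (by positivity) (fun y => sq_nonneg _) hpt
  refine le_trans (le_of_eq ?_) (Real.sqrt_le_sqrt hint)
  simp only [mul_pow]
  rw [integral_const_mul, Real.sqrt_mul (sq_nonneg _), Real.sqrt_sq (by positivity)]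

end Vale.Agent.P204.Full.LogTest
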