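import Vale.Agent.P204.Full.Spec
import Vale.Agent.P204.Full.Global.Exact
import Vale.Agent.P204.Full.LogTest.Trans

/-!
P204, step 3: the density of the positive part against the semiclassical norm of the other part.
-/

namespace Vale.Agent.P204.Full.LogTest

open MeasureTheory Set Metric Filter
open scoped Manifold ContDiff Topology RealInnerProductSpace

universe u

section Proof

variable {M : Type u} [TopologicalSpace M] [ChartedSpace E4 M] [IsManifold (𝓡 4) ∞ M]
  [T2Space M] (S : Setup M) (i : Fin S.at_.n)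

theorem isClosedForm_test (K : ℝ) (a : E4) {r : ℝ} (hr : 0 < r) :
    IsClosedForm (extC (S.at_.chart i) (testC K (jt S i) a r)) := by
  have h := isExactForm_extC (S.at_.mem_maximal i) (isCompact_closedBall (0 : E4) 3)
    (S.closedBall3_subset i) (A := alphaC K (jt S i) a r)
    (contDiff_alphaC K (jt S i) a r hr (contDiff_jt S i)).contDiffOn fun y _ hy => by
      have hy' : (3 : ℝ) < dist y 0 := not_le.1 hy
      have : chi y = 0 := chi.zero_of_le_dist hy'.le
      funext b
      simp [alphaC, alphaL, this]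
  exact h.1.isClosedForm

omit [T2Space M] in
/-- two-sided comparison of `F` on complex lines with the chart norm -/
theorem exists_F_bounds : ∃ lo hi, 0 < lo ∧ 0 < hi ∧ ∀ x ∈ (S.at_.chart i).source,
    S.at_.chart i x ∈ closedBall (0 : E4) 3 → ∀ v,
      lo * ‖dMap (S.at_.chart i) x v‖ ^ 2 ≤ S.F.1 x v (S.J x v) ∧
        S.F.1 x v (S.J x v) ≤ hi * ‖dMap (S.at_.chart i) x v‖ ^ 2 := by
  set c := S.at_.chart i with hc
  have hcc := S.at_.mem_maximal i
  have ht := S.closedBall3_subset i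
  let f : E4 × E4 → ℝ := fun p => ∑ a, ∑ b, p.2 a * (jt S i p.1 p.2) b * readC c S.F.1 p.1 a b
  have hproj : ∀ a : Fin 4, Continuous fun w : E4 => w a := fun a =>
    (EuclideanSpace.proj a : E4 →L[ℝ] ℝ).continuous
  have hf : ContinuousOn f (closedBall (0 : E4) 3 ×ˢ sphere (0 : E4) 1) := by
    refine continuousOn_finsetSum _ fun a _ => continuousOn_finsetSum _ fun b _ => ?_
    refine ((((hproj a).comp continuous_snd).mul ((hproj b).comp
      (((contDiff_jt S i).continuous.comp continuous_fst).clm_apply continuous_snd))).continuousOn).mul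
      ?_
    exact (((S.F.2.contDiffOn_coef hcc a b).continuousOn.mono ht).comp continuous_fst.continuousOn
      fun p hp => hp.1)
  have hval : ∀ x ∈ c.source, c x ∈ closedBall (0 : E4) 3 → ∀ v,
      S.F.1 x v (S.J x v) = f (c x, dMap c x v) := fun x hx hx3 v => by
    rw [S.F.2.isAltField.apply_eq_readC hcc hx]
    refine Finset.sum_congr rfl fun a _ => Finset.sum_congr rfl fun b _ => ?_
    rw [dMap_J S.isJ hcc hx, jt_apply S i hx3]
  have hpos : ∀ p ∈ closedBall (0 : E4) 3 ×ˢ sphere (0 : E4) 1, 0 < f p := by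
    rintro ⟨z, v⟩ ⟨hz, hv⟩
    have hs := c.map_target (ht hz)
    have hv0 : v ≠ 0 := ne_zero_of_mem_unit_sphere ⟨v, hv⟩
    have hd : dInv c z v ≠ 0 := fun h => hv0 (by
      have h' := dMap_dInv hcc (ht hz) v
      rw [h, ← dMapL_apply, map_zero] at h'
      exact h'.symm)
    have := S.F_pos (c.symm z) (dInv c z v) hd
    rwa [hval _ hs (by rwa [c.right_inv (ht hz)]), c.right_inv (ht hz), dMap_dInv hcc (ht hz)]
      at this
  have hK : IsCompact (closedBall (0 : E4) 3 ×ˢ sphere (0 : E4) 1) :=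
    (isCompact_closedBall _ _).prod (isCompact_sphere _ _)
  have hne : (closedBall (0 : E4) 3 ×ˢ sphere (0 : E4) 1).Nonempty :=
    ⟨(0, ev4 0), mem_closedBall_self (by norm_num), by simp [ev4]⟩
  obtain ⟨p, hp, hmin⟩ := hK.exists_isMinOn hne hf
  obtain ⟨q, hq, hmax⟩ := hK.exists_isMaxOn hne hf
  refine ⟨f p, f q, hpos p hp, hpos q hq, fun x hx hx3 v => ?_⟩
  rw [hval x hx hx3]
  rcases eq_or_ne (dMap c x v) 0 with h0 | h0
  · simp [f, h0]
  set n := ‖dMap c x v‖ with hn
  have hn0 : 0 < n := norm_pos_iff.2 h0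
  have hu : n⁻¹ • dMap c x v ∈ sphere (0 : E4) 1 := by
    rw [mem_sphere_zero_iff_norm, norm_smul, norm_inv, Real.norm_eq_abs, abs_of_pos hn0,
      inv_mul_cancel₀ hn0.ne']
  have hscale : f (c x, dMap c x v) = n ^ 2 * f (c x, n⁻¹ • dMap c x v) := by
    simp only [f, map_smul, Finset.mul_sum]
    refine Finset.sum_congr rfl fun a _ => Finset.sum_congr rfl fun b _ => ?_
    simp only [PiLp.smul_apply, smul_eq_mul]
    field_simp
  rw [hscale]
  have h1 : f p ≤ f (c x, n⁻¹ • dMap c x v) := hmin ⟨hx3, hu⟩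
  have h2 : f (c x, n⁻¹ • dMap c x v) ≤ f q := hmax ⟨hx3, hu⟩
  constructor
  · rw [mul_comm (f p)]; exact mul_le_mul_of_nonneg_left h1 (sq_nonneg n)
  · rw [mul_comm (f q)]; exact mul_le_mul_of_nonneg_left h2 (sq_nonneg n)

omit [T2Space M] in
theorem test_apply (K : ℝ) (a : E4) {r : ℝ} (hr : 0 < r) {x : M} (hx : x ∈ (S.at_.chart i).source)
    (h3 : S.at_.chart i x ∈ closedBall (0 : E4) 3) (v : E4) :
    extC (S.at_.chart i) (testC K (jt S i) a r) x v (S.J x v) =
      testW K (jt S i) a r (S.at_.chart i x) (dMap (S.at_.chart i) x v)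
        (jt S i (S.at_.chart i x) (dMap (S.at_.chart i) x v)) := by
  set c := S.at_.chart i
  have hcc := S.at_.mem_maximal i
  rw [(isAltField_extC c (anti_testC K (jt S i) a r)).apply_eq_readC hcc hx,
    readC_extC hcc _ (c.map_source hx)]
  set V := dMap c x v with hV
  have hW : dMap c x (S.J x v) = jt S i (c x) V := by
    ext p
    rw [dMap_J S.isJ hcc hx, jt_apply S i h3]
  rw [hW]
  set W := jt S i (c x) V
  simp only [testC_apply K (jt S i) a r hr (contDiff_jt S i), testW]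
  rw [bil_expand (fderiv ℝ (alphaL K (jt S i) a r) (c x)) V W,
    bil_expand (fderiv ℝ (alphaL K (jt S i) a r) (c x)) W V,
    Finset.sum_comm (f := fun p q => W p * V q * fderiv ℝ (alphaL K (jt S i) a r) (c x) (ev4 p)
      (ev4 q)), ← Finset.sum_sub_distrib]
  refine Finset.sum_congr rfl fun p _ => ?_
  rw [← Finset.sum_sub_distrib]
  exact Finset.sum_congr rfl fun q _ => by ring

variable [CompactSpace M]

omit [T2Space M] in
/-- points near a point of the small chart ball lie in the middle ball -/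
theorem exists_sep : ∃ δ, 0 < δ ∧ ∀ a ∈ closedBall (0 : E4) 1, ∀ x : M,
    ‖S.at_.emb ((S.at_.chart i).symm a) - S.at_.emb x‖ < δ →
      x ∈ (S.at_.chart i).source ∧ S.at_.chart i x ∈ ball (0 : E4) 2 := by
  set c := S.at_.chart i with hc
  have he : Continuous S.at_.emb :=
    (PiLp.continuous_toLp 2 _).comp (continuous_pi fun k => (S.at_.emb_smooth k).continuous)
  set O := c.source ∩ c ⁻¹' ball (0 : E4) 2 with hO
  have hOo : IsOpen O := c.isOpen_inter_preimage isOpen_ball
  have h14 : closedBall (0 : E4) 1 ⊆ c.target :=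
    (closedBall_subset_closedBall (by norm_num)).trans (S.at_.ball_subset i)
  set f : E4 × M → ℝ := fun p => ‖S.at_.emb (c.symm p.1) - S.at_.emb p.2‖ with hf
  have hQ : IsCompact (closedBall (0 : E4) 1 ×ˢ Oᶜ) :=
    (isCompact_closedBall _ _).prod hOo.isClosed_compl.isCompact
  have hcont : ContinuousOn f (closedBall (0 : E4) 1 ×ˢ Oᶜ) :=
    (((he.comp_continuousOn (c.symm.continuousOn.mono h14)).comp continuous_fst.continuousOn
      fun p hp => hp.1).sub (he.comp continuous_snd).continuousOn).norm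
  rcases (closedBall (0 : E4) 1 ×ˢ Oᶜ).eq_empty_or_nonempty with h0 | h0
  · refine ⟨1, one_pos, fun a ha x _ => ?_⟩
    by_contra h
    exact eq_empty_iff_forall_notMem.1 h0 (a, x) ⟨ha, h⟩
  obtain ⟨⟨a0, x0⟩, hp, hmin⟩ := hQ.exists_isMinOn h0 hcont
  refine ⟨f (a0, x0), norm_pos_iff.2 (sub_ne_zero.2 fun h => ?_), fun a ha x hx => ?_⟩
  · refine hp.2 ?_
    rw [← S.at_.emb_injective h]
    refine ⟨c.map_target (h14 hp.1), ?_⟩
    show c (c.symm a0) ∈ ball (0 : E4) 2
    rw [c.right_inv (h14 hp.1)]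
    exact closedBall_subset_ball (by norm_num) hp.1
  · by_contra h
    exact not_lt.2 (hmin (show (a, x) ∈ _ from ⟨ha, h⟩)) hx

omit [IsManifold (𝓡 4) ∞ M] [T2Space M] [CompactSpace M] in
theorem bump_ne_zero {e : ℝ} (he : 0 < e) {x y : M} (h : S.bump e x y ≠ 0) :
    ‖S.at_.emb x - S.at_.emb y‖ < 2 * e := by
  by_contra hle
  refine h (Real.smoothTransition.zero_of_nonpos ?_)
  have h1 := pow_le_pow_left₀ (by positivity) (not_lt.1 hle) 2
  rw [sub_nonpos, le_div_iff₀ (by positivity)]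
  linarith [mul_pow (2 : ℝ) e 2, sq_nonneg e]

omit [T2Space M] [IsManifold (𝓡 4) ∞ M] [CompactSpace M] in
theorem p11_eval {w : M → E4 → E4 → ℝ} (hw : IsTwoForm w) (x : M) (v : E4) :
    p11 S.J w x v (S.J x v) = w x v (S.J x v) := by
  have h := hw.isAltField
  simp only [p11]
  rw [S.isJ.2.1, show -v = (-1 : ℝ) • v by simp, (h.1 x _).map_smul, h.2 x v (S.J x v)]
  simp

omit [T2Space M] [IsManifold (𝓡 4) ∞ M] [CompactSpace M] in
theorem p11_bump (e : ℝ) (x : M) : p11 S.J (bumpForm S e x).1 = (bumpForm S e x).1 :=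
  (p11_eq_self_iff _ _).2 fun y u v => by
    rw [bumpForm_apply, bumpForm_apply, (p11_eq_self_iff _ _).1 S.F_inv]

/-- the estimate in one chart and at small scales -/
theorem chart_test (O : Obstruction S) {Kk : ℝ} (hK : 0 < Kk) (m : ℕ) :
    ∃ C e0, 0 ≤ C ∧ 0 < e0 ∧ ∀ a ∈ closedBall (0 : E4) 1, ∀ e : ℝ, 0 < e → e ≤ e0 → e ≤ 1 →
      ∀ Y : ℝ, 0 ≤ Y → (∀ ψ : Form M, |O.φ ψ| ≤ Y * S.sN m e ψ.1) →
        O.T (bumpForm S (Kk * e) ((S.at_.chart i).symm a)) ≤ e ^ 2 * (C + C * Y) := by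
  obtain ⟨K, CL, Mb, hCL0, hMb0, hlow⟩ := testW_lower (contDiff_jt S i) (jt_sq S i)
  obtain ⟨lo, hi, hlo, hhi, hF⟩ := exists_F_bounds S i
  obtain ⟨Cs, hCs0, hCs⟩ := exists_sN_bound S i K m
  obtain ⟨δ, hδ, hsep⟩ := exists_sep S i
  obtain ⟨cl, hcl, Cu, hCu, hbl⟩ := S.at_.emb_bilip
  set c := S.at_.chart i with hc
  set Λ := 2 * Kk / cl with hΛ
  have hΛ0 : 0 < Λ := by positivity
  set P := (1 + Mb) * Λ ^ 2 + 1 with hP
  have hP0 : 0 < P := by positivity
  set c0 := 4 / (P ^ 2 * hi) with hc0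
  have hc00 : 0 < c0 := by positivity
  refine ⟨(CL / lo + Cs) / c0, min (δ / (2 * Kk)) (1 / Λ), by positivity,
    lt_min (by positivity) (by positivity), fun a ha e he he0 he1 Y hY hφ => ?_⟩
  set x := c.symm a with hx
  set w : Form M := ⟨_, isTwoForm_test S i K a he⟩ with hw
  set ζ : Form M := (CL / lo) • S.F + p11L S.isJ w - (c0 / e ^ 2) • bumpForm S (Kk * e) x with hζ
  have hinv : p11 S.J ζ.1 = ζ.1 := by
    have e1 : ∀ (r s : ℝ) (u v q : M → E4 → E4 → ℝ), p11 S.J (r • u + v - s • q) =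
        r • p11 S.J u + p11 S.J v - s • p11 S.J q := fun r s u v q => by
      funext y p t
      simp [p11]
      ring
    show p11 S.J ((CL / lo) • S.F.1 + p11 S.J w.1 - (c0 / e ^ 2) • (bumpForm S (Kk * e) x).1) = _
    rw [e1, S.F_inv, p11_p11 S.isJ w.2.isAltField, p11_bump]
    rfl
  have hpos : NonnegJ S.J ζ.1 := by
    intro y v
    show 0 ≤ CL / lo * S.F.1 y v (S.J y v) + p11 S.J w.1 y v (S.J y v) -
      c0 / e ^ 2 * (S.bump (Kk * e) x y * S.F.1 y v (S.J y v))
    rw [p11_eval S w.2]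
    have hΦ : 0 ≤ S.F.1 y v (S.J y v) := by
      rcases eq_or_ne v 0 with rfl | hv
      · rw [(S.F.2.isAltField.isLinear_left y _).map_zero]
      · exact (S.F_pos y v hv).le
    have hb0 : 0 ≤ S.bump (Kk * e) x y := Real.smoothTransition.nonneg _
    have hb1 : S.bump (Kk * e) x y ≤ 1 := Real.smoothTransition.le_one _
    by_cases hys : y ∈ c.source ∧ c y ∈ closedBall (0 : E4) 3
    · obtain ⟨hys, hy3⟩ := hys
      obtain ⟨hFlo, hFhi⟩ := hF y hys hy3 v
      have hwv : w.1 y v (S.J y v) = _ := test_apply S i K a he hys hy3 v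
      rw [hwv]
      set V := dMap c y v
      obtain ⟨hl1, hl2⟩ := hlow a ha e he he1 (c y) hy3 V
      have hC : CL * ‖V‖ ^ 2 ≤ CL / lo * S.F.1 y v (S.J y v) := by
        rw [div_mul_eq_mul_div, le_div_iff₀ hlo, mul_assoc]
        exact mul_le_mul_of_nonneg_left (by linarith) hCL0
      by_cases hb : S.bump (Kk * e) x y = 0
      · rw [hb, zero_mul, mul_zero, sub_zero]
        linarith
      have hd := bump_ne_zero S (show 0 < Kk * e by positivity) hb
      have hya : ‖c y - a‖ ≤ Λ * e := by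
        have h14 : closedBall (0 : E4) 1 ⊆ closedBall 0 4 :=
          closedBall_subset_closedBall (by norm_num)
        have h := (hbl i a (h14 ha) (c y) (closedBall_subset_closedBall (by norm_num) hy3)).1
        rw [c.left_inv hys] at h
        rw [norm_sub_rev, hΛ, div_mul_eq_mul_div, le_div_iff₀ hcl]
        linarith [mul_comm cl ‖a - c y‖]
      have hya1 : ‖c y - a‖ ≤ 1 := hya.trans (by
        have h : e ≤ 1 / Λ := he0.trans (min_le_right _ _)
        rw [le_div_iff₀ hΛ0] at h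
        linarith)
      have hden : (1 + Mb) * ‖c y - a‖ ^ 2 + e ^ 2 ≤ P * e ^ 2 := by
        have := mul_le_mul_of_nonneg_left (pow_le_pow_left₀ (norm_nonneg _) hya 2)
          (by positivity : (0 : ℝ) ≤ 1 + Mb)
        rw [hP]
        linarith
      have hbig : c0 / e ^ 2 * (S.bump (Kk * e) x y * S.F.1 y v (S.J y v)) ≤
          4 * e ^ 2 / ((1 + Mb) * ‖c y - a‖ ^ 2 + e ^ 2) ^ 2 * ‖V‖ ^ 2 := by
        calc c0 / e ^ 2 * (S.bump (Kk * e) x y * S.F.1 y v (S.J y v))
            ≤ c0 / e ^ 2 * (1 * (hi * ‖V‖ ^ 2)) :=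
              mul_le_mul_of_nonneg_left (mul_le_mul hb1 hFhi hΦ zero_le_one) (by positivity)
          _ = 4 * e ^ 2 / (P * e ^ 2) ^ 2 * ‖V‖ ^ 2 := by rw [hc0]; field_simp
          _ ≤ _ := mul_le_mul_of_nonneg_right (div_le_div_of_nonneg_left (by positivity)
              (by positivity) (pow_le_pow_left₀ (by positivity) hden 2)) (sq_nonneg _)
      linarith [hl2 hya1]
    · have hw0 : w.1 y v (S.J y v) = 0 := by
        show extC c _ y v (S.J y v) = 0
        by_cases hs : y ∈ c.source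
        · have h0 := testC_eq_zero K (jt S i) a e (fun h => hys ⟨hs, h⟩)
          simp [extC, indicator_of_mem hs, pushC, h0]
        · simp [extC, indicator_of_notMem hs]
      have hb : S.bump (Kk * e) x y = 0 := by
        by_contra hb
        have hd := bump_ne_zero S (show 0 < Kk * e by positivity) hb
        have h : e ≤ δ / (2 * Kk) := he0.trans (min_le_left _ _)
        rw [le_div_iff₀ (by positivity)] at h
        obtain ⟨h1, h2⟩ := hsep a ha y (lt_of_lt_of_le hd (by linarith))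
        exact hys ⟨h1, ball_subset_closedBall
          (ball_subset_ball (by norm_num : (2 : ℝ) ≤ 3) h2)⟩
      rw [hw0, hb, zero_mul, mul_zero, sub_zero, add_zero]
      exact mul_nonneg (div_nonneg hCL0 hlo.le) hΦ
  have h0 := O.T_nonneg ζ hinv hpos
  rw [hζ, map_sub, map_add, map_smul, map_smul, O.T_unit,
    O.T_inv w (p11L S.isJ w) rfl, smul_eq_mul, smul_eq_mul, mul_one] at h0
  have hcl0 := O.closed_null w (isClosedForm_test S i K a he)
  have hφw : |O.φ w| ≤ Y * Cs := by
    rw [← O.φ_anti w (pmL S.isJ w) rfl]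
    exact (hφ _).trans (mul_le_mul_of_nonneg_left (hCs a ha e he he1) hY)
  have hmain : c0 / e ^ 2 * O.T (bumpForm S (Kk * e) x) ≤ CL / lo + Y * Cs := by
    linarith [(abs_le.1 hφw).1, (abs_le.1 hφw).2]
  rw [div_mul_eq_mul_div, div_le_iff₀ (by positivity)] at hmain
  calc O.T (bumpForm S (Kk * e) x) ≤ (CL / lo + Y * Cs) * e ^ 2 / c0 := by
        rw [le_div_iff₀ hc00]; linarith
    _ ≤ _ := by
        rw [div_le_iff₀ hc00]
        calc (CL / lo + Y * Cs) * e ^ 2 ≤ (CL / lo + Cs + (CL / lo + Cs) * Y) * e ^ 2 := by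
              refine mul_le_mul_of_nonneg_right ?_ (sq_nonneg e)
              linarith [mul_nonneg (div_nonneg hCL0 hlo.le) hY]
          _ = _ := by field_simp

omit [T2Space M] [CompactSpace M] in
theorem sN_F_pos (i : Fin S.at_.n) (m : ℕ) {e : ℝ} (he : 0 < e) : 0 < S.sN m e S.F.1 := by
  set c := S.at_.chart i
  have h24 : closedBall (0 : E4) 2 ⊆ c.target :=
    (closedBall_subset_closedBall (by norm_num)).trans (S.at_.ball_subset i)
  have hne : ∀ y ∈ closedBall (0 : E4) 2, readC c S.F.1 y ≠ 0 := fun y hy h => by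
    have hv : dInv c y (ev4 0) ≠ 0 := fun h0 => by
      have h' := dMap_dInv (S.at_.mem_maximal i) (h24 hy) (ev4 0)
      rw [h0, ← dMapL_apply, map_zero] at h'
      simpa [ev4] using congrArg (fun w : E4 => w 0) h'
    have hx := c.map_target (h24 hy)
    have := S.F_pos (c.symm y) _ hv
    rw [S.F.2.isAltField.apply_eq_readC (S.at_.mem_maximal i) hx, c.right_inv (h24 hy), h] at this
    simp at this
  have hcont : ContinuousOn (fun y => ‖iteratedFDeriv ℝ 0 (S.read i S.F.1) y‖ ^ 2)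
      (closedBall (0 : E4) 2) := by
    simp only [norm_iteratedFDeriv_zero]
    exact (((S.F.2.contDiffOn_readC (S.at_.mem_maximal i)).continuousOn.mono h24).norm).pow 2
  have hint : 0 < ∫ y in closedBall (0 : E4) 2, ‖iteratedFDeriv ℝ 0 (S.read i S.F.1) y‖ ^ 2 := by
    rw [setIntegral_pos_iff_support_of_nonneg_ae (Filter.Eventually.of_forall fun y => sq_nonneg _)
      (hcont.integrableOn_compact (isCompact_closedBall _ _))]
    refine lt_of_lt_of_le (measure_ball_pos volume (0 : E4) zero_lt_two)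
      (measure_mono fun y hy => ⟨?_, ball_subset_closedBall hy⟩)
    simp only [Function.mem_support, norm_iteratedFDeriv_zero, ne_eq,
      pow_eq_zero_iff two_ne_zero, norm_eq_zero]
    exact hne y (ball_subset_closedBall hy)
  have hnn : ∀ j, ∀ l ∈ Finset.range (m + 1), 0 ≤ e ^ l * Real.sqrt
      (∫ y in closedBall (0 : E4) 2, ‖iteratedFDeriv ℝ l (S.read j S.F.1) y‖ ^ 2) :=
    fun j l _ => by positivity
  refine Finset.sum_pos' (fun j _ => Finset.sum_nonneg (hnn j)) ⟨i, Finset.mem_univ i, ?_⟩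
  refine Finset.sum_pos' (hnn i) ⟨0, Finset.mem_range.2 (Nat.succ_pos m), ?_⟩
  exact mul_pos (by norm_num) (Real.sqrt_pos.2 hint)

/-- step 3 for one setup -/
theorem logTest_of_setup : LogTestSpec S := by
  intro O Kk hK m _
  choose C e0 hC0 he0 hC using fun j => chart_test S j O hK m
  refine ⟨∑ j, (C j + 1 / e0 j ^ 2), fun e he he1 Y hφ x => ?_⟩
  obtain ⟨j, -, hj⟩ := Finset.exists_ne_zero_of_sum_ne_zero
    (show ∑ j, S.at_.rho j x ≠ 0 by rw [S.at_.rho_sum]; exact one_ne_zero)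
  obtain ⟨hxs, hxb⟩ := S.mem_of_rho_ne hj
  have hY : 0 ≤ Y := nonneg_of_mul_nonneg_left ((abs_nonneg _).trans (hφ S.F))
    (sN_F_pos S j m he)
  have hle : C j + 1 / e0 j ^ 2 ≤ ∑ j, (C j + 1 / e0 j ^ 2) :=
    Finset.single_le_sum (f := fun j => C j + 1 / e0 j ^ 2)
      (fun k _ => add_nonneg (hC0 k) (by positivity)) (Finset.mem_univ j)
  rw [ballVal_eq]
  set C' := ∑ j, (C j + 1 / e0 j ^ 2) with hC'
  by_cases hsmall : e ≤ e0 j
  · have h := hC j _ (ball_subset_closedBall hxb) e he hsmall he1 Y hY hφ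
    rw [(S.at_.chart j).left_inv hxs] at h
    refine h.trans (mul_le_mul_of_nonneg_left ?_ (sq_nonneg e))
    have : C j ≤ C' := le_trans (le_add_of_nonneg_right (by positivity)) hle
    exact add_le_add this (mul_le_mul_of_nonneg_right this hY)
  · have hinv : p11 S.J (S.F - bumpForm S (Kk * e) x).1 = (S.F - bumpForm S (Kk * e) x).1 := by
      funext y u v
      have h1 := congrFun (congrFun (congrFun S.F_inv y) u) v
      have h2 := congrFun (congrFun (congrFun (p11_bump S (Kk * e) x) y) u) v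
      simp only [p11] at h1 h2
      simp only [p11, Submodule.coe_sub, Pi.sub_apply]
      linarith
    have h := O.T_nonneg _ hinv fun y v => by
      show 0 ≤ S.F.1 y v (S.J y v) - S.bump (Kk * e) x y * S.F.1 y v (S.J y v)
      have hb1 : S.bump (Kk * e) x y ≤ 1 := Real.smoothTransition.le_one _
      rcases eq_or_ne v 0 with rfl | hv
      · simp [(S.F.2.isAltField.isLinear_left y _).map_zero]
      · have := S.F_pos y v hv
        linarith [mul_le_mul_of_nonneg_right hb1 this.le]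
    rw [map_sub, O.T_unit] at h
    have h1 : 1 ≤ e ^ 2 * (1 / e0 j ^ 2) := by
      rw [mul_one_div, le_div_iff₀ (pow_pos (he0 j) 2), one_mul]
      exact pow_le_pow_left₀ (he0 j).le (not_le.1 hsmall).le 2
    have h2 : e ^ 2 * (1 / e0 j ^ 2) ≤ e ^ 2 * (C' + C' * Y) := by
      refine mul_le_mul_of_nonneg_left ?_ (sq_nonneg e)
      have h3 : 0 ≤ 1 / e0 j ^ 2 := by positivity
      have h4 : 0 ≤ C' := le_trans (add_nonneg (hC0 j) h3) hle
      linarith [hC0 j, mul_nonneg h4 hY]
    linarith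

end Proof

/-- step 3 -/
theorem logTestSpec {M : Type u} [TopologicalSpace M] [ChartedSpace E4 M]
    [IsManifold (𝓡 4) ∞ M] [T2Space M] [CompactSpace M] (S : Setup M) : LogTestSpec S :=
  logTest_of_setup S

end Vale.Agent.P204.Full.LogTest
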