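import Vale.Agent.P204.Full.LogTest.Kernel

/-!
P204, step 3 in a chart: the exact test form `d(-χ ξ ∘ J)`, its positivity on complex lines and
the derivative bounds of its anti-invariant part.
-/

namespace Vale.Agent.P204.Full.LogTest

open Set Metric
open scoped ContDiff RealInnerProductSpace Topology

/-- the cut-off of the test form -/
noncomputable def chi : ContDiffBump (0 : E4) where
  rIn := 2
  rOut := 3
  rIn_pos := by norm_num
  rIn_lt_rOut := by norm_num

variable (K : ℝ) (J : E4 → E4 →L[ℝ] E4) (a : E4) (r : ℝ)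

/-- the test one-form -/
noncomputable def alphaL (z : E4) : E4 →L[ℝ] ℝ :=
  -(chi z) • (xi K (J a) a r z).comp (J z)

/-- its differential -/
noncomputable def testW (z u v : E4) : ℝ :=
  fderiv ℝ (alphaL K J a r) z u v - fderiv ℝ (alphaL K J a r) z v u

/-- coefficients of the test one-form -/
noncomputable def alphaC (z : E4) : C1 := fun b => alphaL K J a r z (ev4 b)

/-- coefficients of the test two-form -/
noncomputable def testC (z : E4) : C2 := d1 (alphaC K J a r) z

/-- derivative of the test covector field -/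
noncomputable def hess (z w v : E4) : ℝ :=
  phiA K (J a) a r z * qA (J a) w v -
    (4 / sA (J a) a r z ^ 2 + K / (sA (J a) a r z * Real.sqrt (sA (J a) a r z))) *
      (qA (J a) (z - a) w * qA (J a) (z - a) v)

/-- first order remainder -/
noncomputable def rest (z u v : E4) : E4 :=
  (fderiv ℝ chi z u) • J z v + chi z • fderiv ℝ J z u v -
    ((fderiv ℝ chi z v) • J z u + chi z • fderiv ℝ J z v u)

theorem qA_comm (A : E4 →L[ℝ] E4) (u v : E4) : qA A u v = qA A v u := by
  simp [qA, real_inner_comm]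

theorem qA_add (A : E4 →L[ℝ] E4) (u v w : E4) : qA A u (v + w) = qA A u v + qA A u w := by
  simp [qA, inner_add_right]; ring

theorem qA_neg (A : E4 →L[ℝ] E4) (u v : E4) : qA A u (-v) = -qA A u v := by
  simp [qA]; ring

theorem qA_cs (A : E4 →L[ℝ] E4) (u v : E4) : qA A u v ^ 2 ≤ qA A u u * qA A v v := by
  have h : ∀ t : ℝ, 0 ≤ qA A v v * (t * t) + (-2 * qA A u v) * t + qA A u u := fun t => by
    have h0 : 0 ≤ qA A (u - t • v) (u - t • v) := by rw [qA_self]; positivity
    refine h0.trans_eq ?_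
    simp only [qA, map_sub, map_smul, inner_sub_left, inner_sub_right, real_inner_smul_left,
      real_inner_smul_right]
    rw [real_inner_comm v u, real_inner_comm (A v) (A u)]
    ring
  have := discrim_le_zero h
  rw [discrim] at this
  nlinarith

theorem hasFDerivAt_sA (A : E4 →L[ℝ] E4) (z : E4) :
    HasFDerivAt (sA A a r) ((2 : ℝ) • (isl (z - a) + (isl (A (z - a))).comp A)) z := by
  have h1 : HasFDerivAt (fun y : E4 => y - a) (ContinuousLinearMap.id ℝ E4) z :=
    (hasFDerivAt_id z).sub_const a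
  have h2 := h1.norm_sq
  have h3 := (A.hasFDerivAt.comp z h1).norm_sq
  have h := (h2.add h3).add_const (r ^ 2)
  refine (h.congr_of_eventuallyEq (Filter.Eventually.of_forall fun y => ?_)).congr_fderiv ?_
  · simp [sA, qA_self, Function.comp]
  · ext v
    simp [isl_apply]

theorem fderiv_phiA (hr : 0 < r) (z w : E4) :
    fderiv ℝ (phiA K (J a) a r) z w =
      -(4 / sA (J a) a r z ^ 2 + K / (sA (J a) a r z * Real.sqrt (sA (J a) a r z))) *
        qA (J a) (z - a) w := by
  have hs := sA_pos (J a) a hr z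
  have hd := hasFDerivAt_sA a r (J a) z
  have hq := Real.sqrt_pos.2 hs
  have e1 := ((hasDerivAt_inv hs.ne').comp_hasFDerivAt z hd).const_mul (2 : ℝ)
  have e2 := ((hasDerivAt_inv hq.ne').comp_hasFDerivAt z (hd.sqrt hs.ne')).const_mul K
  have h : HasFDerivAt (phiA K (J a) a r) _ z :=
    (e1.add e2).congr_of_eventuallyEq (Filter.Eventually.of_forall fun y => by
      simp [phiA, div_eq_mul_inv])
  rw [h.fderiv]
  simp [qA, isl_apply, inner_sub_left]
  rw [Real.sq_sqrt hs.le]
  field_simp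
  ring

theorem contDiff_alphaL (hr : 0 < r) (hJ : ContDiff ℝ ∞ J) :
    ContDiff ℝ ∞ (alphaL K J a r) :=
  chi.contDiff.neg.smul ((contDiff_xi K (J a) a hr).clm_comp hJ)

theorem fderiv_alphaL (hr : 0 < r) (hJ : ContDiff ℝ ∞ J) (z u v : E4) :
    fderiv ℝ (alphaL K J a r) z u v =
      -(chi z * hess K J a r z u (J z v)) -
        xi K (J a) a r z ((fderiv ℝ chi z u) • J z v + chi z • fderiv ℝ J z u v) := by
  have hd := ((contDiff_alphaL K J a r hr hJ).differentiable (by simp) z).hasFDerivAt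
  have hv := hd.clm_apply (hasFDerivAt_const v z)
  have hc := ((chi.contDiff (n := ⊤)).differentiable (by simp) z).hasFDerivAt
  have hp := ((contDiff_phiA K (J a) a hr).differentiable (by simp) z).hasFDerivAt
  have hj := ((hJ.differentiable (by simp) z).hasFDerivAt).clm_apply (hasFDerivAt_const v z)
  have h1 : HasFDerivAt (fun y : E4 => y - a) (ContinuousLinearMap.id ℝ E4) z :=
    (hasFDerivAt_id z).sub_const a
  have hi1 := h1.inner ℝ hj
  have hi2 := ((J a).hasFDerivAt.comp z h1).inner ℝ ((J a).hasFDerivAt.comp z hj)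
  have heq : (fun y => alphaL K J a r y v) =
      fun y => -(chi y) * (phiA K (J a) a r y * (⟪y - a, J y v⟫ + ⟪J a (y - a), J a (J y v)⟫)) := by
    funext y
    simp only [alphaL, smul_apply, ContinuousLinearMap.comp_apply, smul_eq_mul, xi_apply, qA]
  have hf : HasFDerivAt (fun y => alphaL K J a r y v) _ z :=
    (hc.neg.mul (hp.mul (hi1.add hi2))).congr_of_eventuallyEq
      (Filter.Eventually.of_forall fun y => by simpa [Function.comp] using congrFun heq y)
  have := congrArg (fun L : E4 →L[ℝ] ℝ => L u) (hv.unique hf)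
  simp at this
  rw [this]
  rw [hess, map_add, map_smul, map_smul, xi_apply, xi_apply, fderiv_phiA K J a r hr]
  simp [qA, inner_sub_left]
  ring

theorem testW_eq (hr : 0 < r) (hJ : ContDiff ℝ ∞ J) (z u v : E4) :
    testW K J a r z u v =
      -(chi z * (hess K J a r z u (J z v) - hess K J a r z v (J z u))) -
        xi K (J a) a r z (rest J z u v) := by
  rw [testW, fderiv_alphaL K J a r hr hJ, fderiv_alphaL K J a r hr hJ, rest, map_sub]
  ring

theorem testC_apply (hr : 0 < r) (hJ : ContDiff ℝ ∞ J) (z : E4) (b c : Fin 4) :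
    testC K J a r z b c = testW K J a r z (ev4 b) (ev4 c) := by
  have hd := ((contDiff_alphaL K J a r hr hJ).differentiable (by simp) z).hasFDerivAt
  have h : ∀ p q : Fin 4, pd (fun y => alphaC K J a r y q) p z =
      fderiv ℝ (alphaL K J a r) z (ev4 p) (ev4 q) := fun p q => by
    rw [pd, show (fun y => alphaC K J a r y q) = fun y => alphaL K J a r y (ev4 q) from rfl,
      (hd.clm_apply (hasFDerivAt_const (ev4 q) z)).fderiv]
    simp
  simp only [testC, d1, h, testW]

theorem contDiff_alphaC (hr : 0 < r) (hJ : ContDiff ℝ ∞ J) : ContDiff ℝ ∞ (alphaC K J a r) :=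
  contDiff_pi.2 fun b => (contDiff_alphaL K J a r hr hJ).clm_apply contDiff_const

theorem anti_testC (z : E4) : Anti (testC K J a r z) := fun _ _ => by
  simp [testC, d1]

theorem contDiff_testC (hr : 0 < r) (hJ : ContDiff ℝ ∞ J) : ContDiff ℝ ∞ (testC K J a r) := by
  have h := (contDiff_alphaL K J a r hr hJ).fderiv_right (m := ∞) (by norm_num)
  refine contDiff_pi.2 fun b => contDiff_pi.2 fun c => ?_
  simp only [testC_apply K J a r hr hJ, testW]
  exact ((h.clm_apply contDiff_const).clm_apply contDiff_const).sub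
    ((h.clm_apply contDiff_const).clm_apply contDiff_const)

theorem d2_testC (hr : 0 < r) (hJ : ContDiff ℝ ∞ J) (z : E4) (b c e : Fin 4) :
    d2 (testC K J a r) z b c e = 0 := by
  have hs := contDiff_alphaL K J a r hr hJ
  have h2 := ((hs.fderiv_right (m := ∞) (by norm_num)).differentiable (by simp) z).hasFDerivAt
  set f := alphaL K J a r
  have hsym := (hs.contDiffAt (x := z)).isSymmSndFDerivAt
    (by simpa using (WithTop.coe_le_coe.2 le_top : ((2 : ℕ∞) : WithTop ℕ∞) ≤ ∞))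
  have h : ∀ p q l : Fin 4, pd (fun y => testC K J a r y q l) p z =
      fderiv ℝ (fderiv ℝ f) z (ev4 p) (ev4 q) (ev4 l) -
        fderiv ℝ (fderiv ℝ f) z (ev4 p) (ev4 l) (ev4 q) := fun p q l => by
    simp only [pd, testC_apply K J a r hr hJ, testW]
    rw [(((h2.clm_apply (hasFDerivAt_const (ev4 q) z)).clm_apply
      (hasFDerivAt_const (ev4 l) z)).fun_sub ((h2.clm_apply (hasFDerivAt_const (ev4 l) z)).clm_apply
      (hasFDerivAt_const (ev4 q) z))).fderiv]
    simp
  simp only [d2, h]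
  rw [hsym.eq (ev4 c) (ev4 b), hsym.eq (ev4 e) (ev4 b), hsym.eq (ev4 e) (ev4 c)]
  ring

theorem testC_eq_zero {z : E4} (hz : z ∉ closedBall (0 : E4) 3) : testC K J a r z = 0 := by
  have hev : alphaC K J a r =ᶠ[𝓝 z] fun _ => 0 := by
    filter_upwards [isClosed_closedBall.isOpen_compl.mem_nhds hz] with y hy
    funext b
    have : chi y = 0 := chi.zero_of_le_dist (by
      have : (3 : ℝ) < dist y 0 := not_le.1 hy
      exact this.le)
    simp [alphaC, alphaL, this]
  funext b c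
  have h : ∀ p q : Fin 4, pd (fun y => alphaC K J a r y q) p z = 0 := fun p q => by
    have h' : (fun y => alphaC K J a r y q) =ᶠ[𝓝 z] fun _ => (0 : ℝ) :=
      hev.fun_comp fun f : C1 => f q
    rw [pd, h'.fderiv_eq]
    simp
  simp [testC, d1, h]

/-- one-point algebra of the positivity -/
theorem bracket_bound {n s r κ K R : ℝ} (hn : 0 ≤ n) (hs : s = n ^ 2 + r ^ 2) (hr : 0 < r)
    (hκ : 0 ≤ κ) (hK : 0 ≤ K) (hR : n ≤ R) :
    4 * r ^ 2 / s ^ 2 + (K - 12 * κ) / Real.sqrt s - (4 * κ ^ 2 + K * (4 * κ + κ ^ 2 * R)) ≤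
      (2 / s + K / Real.sqrt s) * (2 - 2 * (κ * n)) -
        (4 / s ^ 2 + K / (s * Real.sqrt s)) * (n ^ 2 * (1 + 2 * (κ * n) + (κ * n) ^ 2)) := by
  have hs0 : 0 < s := by rw [hs]; positivity
  set w := Real.sqrt s with hw
  have hw0 : 0 < w := Real.sqrt_pos.2 hs0
  have hww : w ^ 2 = s := Real.sq_sqrt hs0.le
  have hnw : n ≤ w := Real.le_sqrt_of_sq_le (by rw [hs]; nlinarith)
  have hns : n ^ 2 ≤ s := by rw [hs]; nlinarith
  have e1 : n / s ≤ 1 / w := by
    rw [div_le_div_iff₀ hs0 hw0]; nlinarith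
  have e2 : n ^ 2 / s ≤ 1 := by rw [div_le_one hs0]; exact hns
  have e3 : n / w ≤ 1 := by rw [div_le_one hw0]; exact hnw
  have e4 : n ^ 3 / s ^ 2 ≤ 1 / w := by
    calc n ^ 3 / s ^ 2 = n / s * (n ^ 2 / s) := by field_simp
      _ ≤ n / s * 1 := mul_le_mul_of_nonneg_left e2 (by positivity)
      _ ≤ 1 / w := by linarith
  have e5 : n ^ 4 / s ^ 2 ≤ 1 := by
    calc n ^ 4 / s ^ 2 = (n ^ 2 / s) ^ 2 := by field_simp
      _ ≤ 1 := pow_le_one₀ (by positivity) e2
  have e6 : n ^ 3 / (s * w) ≤ 1 := by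
    calc n ^ 3 / (s * w) = n ^ 2 / s * (n / w) := by field_simp
      _ ≤ 1 := mul_le_one₀ e2 (by positivity) e3
  have e7 : n ^ 4 / (s * w) ≤ R := by
    calc n ^ 4 / (s * w) = n ^ 3 / (s * w) * n := by field_simp
      _ ≤ 1 * n := mul_le_mul_of_nonneg_right e6 hn
      _ ≤ R := by linarith
  have hr2 : r ^ 2 = s - n ^ 2 := by rw [hs]; ring
  have key : (2 / s + K / w) * (2 - 2 * (κ * n)) -
        (4 / s ^ 2 + K / (s * w)) * (n ^ 2 * (1 + 2 * (κ * n) + (κ * n) ^ 2)) =
      4 * r ^ 2 / s ^ 2 + K * (2 - n ^ 2 / s) / w - 4 * κ * (n / s) - 8 * κ * (n ^ 3 / s ^ 2)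
        - 4 * κ ^ 2 * (n ^ 4 / s ^ 2)
        - K * (2 * κ * (n / w) + 2 * κ * (n ^ 3 / (s * w)) + κ ^ 2 * (n ^ 4 / (s * w))) := by
    rw [hr2]; field_simp; ring
  rw [key]
  have hKw : K / w ≤ K * (2 - n ^ 2 / s) / w := by
    refine div_le_div_of_nonneg_right ?_ hw0.le
    nlinarith
  have hsplit : (K - 12 * κ) / w = K / w - 4 * κ * (1 / w) - 8 * κ * (1 / w) := by ring
  have hb : 2 * κ * (n / w) + 2 * κ * (n ^ 3 / (s * w)) + κ ^ 2 * (n ^ 4 / (s * w)) ≤
      4 * κ + κ ^ 2 * R := by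
    nlinarith [mul_le_mul_of_nonneg_left e7 (sq_nonneg κ)]
  rw [hsplit]
  nlinarith [mul_le_mul_of_nonneg_left e1 hκ, mul_le_mul_of_nonneg_left e4 hκ,
    mul_le_mul_of_nonneg_left e5 (sq_nonneg κ), mul_le_mul_of_nonneg_left hb hK]

/-- a nearly complex line: lengths and Bessel's inequality -/
theorem line_bounds (A : E4 →L[ℝ] E4) (u v E : E4) {n p δ : ℝ} (hn : 0 ≤ n) (hp : 0 ≤ p)
    (hδ : 0 ≤ δ) (hn2 : n ^ 2 = qA A u u) (hp2 : p ^ 2 = qA A v v) (hA : A (A v) = -v)
    (hE : qA A E E ≤ (δ * p) ^ 2) :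
    p ^ 2 * (1 - 2 * δ) ≤ qA A (A v + E) (A v + E) ∧
      qA A u v ^ 2 + qA A u (A v + E) ^ 2 ≤ n ^ 2 * p ^ 2 * (1 + 2 * δ + δ ^ 2) := by
  have hAA : qA A (A v) (A v) = p ^ 2 := by
    rw [hp2]; simp only [qA, hA, inner_neg_neg]; ring
  have hAo : qA A v (A v) = 0 := by
    simp only [qA, hA, inner_neg_right]
    rw [real_inner_comm v (A v)]; ring
  have hE0 : 0 ≤ qA A E E := by rw [qA_self]; positivity
  have hAE : |qA A (A v) E| ≤ δ * p * p := by
    refine abs_le_of_sq_le_sq ((qA_cs A (A v) E).trans ?_) (by positivity)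
    rw [hAA]
    calc p ^ 2 * qA A E E ≤ p ^ 2 * (δ * p) ^ 2 := mul_le_mul_of_nonneg_left hE (sq_nonneg p)
      _ = _ := by ring
  refine ⟨?_, ?_⟩
  · have h : qA A (A v + E) (A v + E) = p ^ 2 + 2 * qA A (A v) E + qA A E E := by
      rw [qA_add, qA_comm A _ (A v), qA_comm A (A v + E) E, qA_add, qA_add,
        qA_comm A E (A v), hAA]
      ring
    rw [h]
    linarith [(abs_le.1 hAE).1]
  have hbes : qA A u v ^ 2 + qA A u (A v) ^ 2 ≤ n ^ 2 * p ^ 2 := by
    generalize hx : qA A u v = x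
    generalize hy : qA A u (A v) = y
    have h := qA_cs A u (x • v + y • A v)
    have e : ∀ w, qA A w (x • v + y • A v) = x * qA A w v + y * qA A w (A v) := fun w => by
      simp only [qA, map_add, map_smul, inner_add_right, real_inner_smul_right]; ring
    have e' : qA A (x • v + y • A v) (x • v + y • A v) = (x ^ 2 + y ^ 2) * p ^ 2 := by
      rw [e, qA_comm A _ v, qA_comm A _ (A v), e, e, hAo, qA_comm A (A v) v, hAo, hAA, ← hp2]
      ring
    rw [e, e', ← hn2, hx, hy] at h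
    rcases eq_or_lt_of_le (show 0 ≤ x ^ 2 + y ^ 2 by positivity) with h0 | h0
    · rw [← h0]; positivity
    · refine le_of_mul_le_mul_right ?_ h0
      calc (x ^ 2 + y ^ 2) * (x ^ 2 + y ^ 2) = (x * x + y * y) ^ 2 := by ring
        _ ≤ n ^ 2 * ((x ^ 2 + y ^ 2) * p ^ 2) := h
        _ = _ := by ring
  have huE : |qA A u E| ≤ n * (δ * p) := by
    refine abs_le_of_sq_le_sq ((qA_cs A u E).trans ?_) (by positivity)
    rw [← hn2, mul_pow n]
    exact mul_le_mul_of_nonneg_left hE (sq_nonneg n)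
  have huA : |qA A u (A v)| ≤ n * p := by
    refine abs_le_of_sq_le_sq ?_ (by positivity)
    rw [mul_pow]
    linarith [sq_nonneg (qA A u v)]
  rw [qA_add]
  have h1 : qA A u (A v) * qA A u E ≤ n * p * (n * (δ * p)) :=
    (le_abs_self _).trans (by rw [abs_mul]; exact mul_le_mul huA huE (abs_nonneg _) (by positivity))
  have h2 : qA A u E ^ 2 ≤ (n * (δ * p)) ^ 2 := by
    rw [← sq_abs]; exact pow_le_pow_left₀ (abs_nonneg _) huE 2
  generalize qA A u v = x at *
  generalize qA A u (A v) = y at *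
  generalize qA A u E = z at *
  linarith

/-- positivity of the Hessian on nearly complex lines -/
theorem hess_pos {z v : E4} {κ R : ℝ} (hK : 0 ≤ K) (hr : 0 < r) (hκ : 0 ≤ κ)
    (hJa : J a (J a v) = -v)
    (hE : qA (J a) (J z v - J a v) (J z v - J a v) ≤
      κ ^ 2 * qA (J a) (z - a) (z - a) * qA (J a) v v)
    (hR : Real.sqrt (qA (J a) (z - a) (z - a)) ≤ R) :
    qA (J a) v v * (4 * r ^ 2 / sA (J a) a r z ^ 2 +
        (K - 12 * κ) / Real.sqrt (sA (J a) a r z) - (4 * κ ^ 2 + K * (4 * κ + κ ^ 2 * R))) ≤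
      hess K J a r z v v + hess K J a r z (J z v) (J z v) := by
  have hq0 : 0 ≤ qA (J a) v v := by rw [qA_self]; positivity
  have hn0 : 0 ≤ qA (J a) (z - a) (z - a) := by rw [qA_self]; positivity
  generalize hn : Real.sqrt (qA (J a) (z - a) (z - a)) = n at hR
  have hn' : 0 ≤ n := hn ▸ Real.sqrt_nonneg _
  have hn2 : n ^ 2 = qA (J a) (z - a) (z - a) := hn ▸ Real.sq_sqrt hn0
  obtain ⟨p, hp0, hp2⟩ : ∃ p, 0 ≤ p ∧ p ^ 2 = qA (J a) v v :=
    ⟨_, Real.sqrt_nonneg _, Real.sq_sqrt hq0⟩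
  have hl := line_bounds (J a) (z - a) v (J z v - J a v) hn' hp0 (mul_nonneg hκ hn') hn2 hp2 hJa
    (by rw [mul_pow, mul_pow, hn2, hp2]; exact hE)
  rw [add_sub_cancel] at hl
  have hs : sA (J a) a r z = n ^ 2 + r ^ 2 := by rw [sA, hn2]
  have hs0 : 0 < sA (J a) a r z := sA_pos (J a) a hr z
  have hb := bracket_bound hn' hs hr hκ hK hR
  rw [hess, hess, phiA]
  generalize sA (J a) a r z = s at *
  generalize hφ : 2 / s + K / Real.sqrt s = φ at *
  generalize hP : 4 / s ^ 2 + K / (s * Real.sqrt s) = P at *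
  have hφ0 : 0 ≤ φ := hφ ▸ by positivity
  have hP0 : 0 ≤ P := hP ▸ by positivity
  have e1 := mul_le_mul_of_nonneg_left hb hq0
  have e2 := mul_le_mul_of_nonneg_left hl.1 hφ0
  have e3 := mul_le_mul_of_nonneg_left hl.2 hP0
  rw [← hp2] at e1 ⊢
  linarith

end Vale.Agent.P204.Full.LogTest
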